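import Mathlib

/-!
# Row 250, B1 (helper97): double integrals over `[α, β] × [0, 2π]`, divergence theorem,
differentiation of `∬ Φ (u z)` along uniformly differentiable families
-/

set_option autoImplicit false
open MeasureTheory Set Filter Topology Asymptotics

noncomputable section

namespace Crest.Agent.N250.Act

/-- the closed rectangle -/
def Rc (α β : ℝ) : Set (ℝ × ℝ) := Icc α β ×ˢ Icc 0 (2 * Real.pi)

theorem isCompact_Rc (α β : ℝ) : IsCompact (Rc α β) := isCompact_Icc.prod isCompact_Icc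

theorem tp_pos : (0 : ℝ) ≤ 2 * Real.pi := by positivity

/-- `∫_α^β ∫_0^{2π} f` -/
def II (α β : ℝ) (f : ℝ × ℝ → ℂ) : ℂ := ∫ s in α..β, ∫ θ in (0 : ℝ)..(2 * Real.pi), f (s, θ)

/-- `∫_0^{2π} f (s, ·)` -/
def OI (s : ℝ) (f : ℝ × ℝ → ℂ) : ℂ := ∫ θ in (0 : ℝ)..(2 * Real.pi), f (s, θ)

variable {α β : ℝ}

theorem intOn {f : ℝ × ℝ → ℂ} (h : α ≤ β) (hf : ContinuousOn f (Rc α β)) :
    IntegrableOn f (uIoc α β ×ˢ uIoc 0 (2 * Real.pi)) := by
  refine (hf.integrableOn_compact (isCompact_Rc α β)).mono_set ?_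
  rw [uIoc_of_le h, uIoc_of_le tp_pos]
  exact prod_mono Ioc_subset_Icc_self Ioc_subset_Icc_self

theorem II_eq {f : ℝ × ℝ → ℂ} (h : α ≤ β) (hf : ContinuousOn f (Rc α β)) :
    II α β f = ∫ p in Rc α β, f p := by
  have hi : IntegrableOn f (Icc α β ×ˢ Icc 0 (2 * Real.pi)) (volume.prod volume) :=
    hf.integrableOn_compact (isCompact_Rc α β)
  rw [II, Rc, Measure.volume_eq_prod, setIntegral_prod f hi, intervalIntegral.integral_of_le h,
    integral_Icc_eq_integral_Ioc]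
  refine setIntegral_congr_fun measurableSet_Ioc (fun s _ => ?_)
  rw [intervalIntegral.integral_of_le tp_pos, integral_Icc_eq_integral_Ioc]

theorem II_swap {f : ℝ × ℝ → ℂ} (h : α ≤ β) (hf : ContinuousOn f (Rc α β)) :
    II α β f = ∫ θ in (0 : ℝ)..(2 * Real.pi), ∫ s in α..β, f (s, θ) :=
  intervalIntegral_intervalIntegral_swap (F := fun s θ => f (s, θ)) (intOn h hf)

theorem II_congr {f g : ℝ × ℝ → ℂ} (h : α ≤ β) (hfg : EqOn f g (Rc α β)) :
    II α β f = II α β g := by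
  refine intervalIntegral.integral_congr (fun s hs => ?_)
  refine intervalIntegral.integral_congr (fun θ hθ => ?_)
  rw [uIcc_of_le h] at hs
  rw [uIcc_of_le tp_pos] at hθ
  exact hfg ⟨hs, hθ⟩

theorem OI_congr {f g : ℝ × ℝ → ℂ} {s : ℝ} (hs : s ∈ Icc α β) (hfg : EqOn f g (Rc α β)) :
    OI s f = OI s g := by
  refine intervalIntegral.integral_congr (fun θ hθ => ?_)
  rw [uIcc_of_le tp_pos] at hθ
  exact hfg ⟨hs, hθ⟩

theorem II_add {f g : ℝ × ℝ → ℂ} (h : α ≤ β) (hf : ContinuousOn f (Rc α β))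
    (hg : ContinuousOn g (Rc α β)) : II α β (fun p => f p + g p) = II α β f + II α β g := by
  rw [II_eq h hf, II_eq h hg, II_eq h (hf.fun_add hg)]
  exact integral_add (hf.integrableOn_compact (isCompact_Rc α β))
    (hg.integrableOn_compact (isCompact_Rc α β))

theorem II_sub {f g : ℝ × ℝ → ℂ} (h : α ≤ β) (hf : ContinuousOn f (Rc α β))
    (hg : ContinuousOn g (Rc α β)) : II α β (fun p => f p - g p) = II α β f - II α β g := by
  rw [II_eq h hf, II_eq h hg, II_eq h (hf.fun_sub hg)]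
  exact integral_sub (hf.integrableOn_compact (isCompact_Rc α β))
    (hg.integrableOn_compact (isCompact_Rc α β))

theorem II_zero : II α β (fun _ => 0) = 0 := by simp [II]

theorem cs {f : ℝ × ℝ → ℂ} (hf : ContinuousOn f (Rc α β)) {θ : ℝ} (hθ : θ ∈ Icc 0 (2 * Real.pi)) :
    ContinuousOn (fun s => f (s, θ)) (Icc α β) :=
  hf.comp (continuous_id.prodMk continuous_const).continuousOn (fun _ hs => ⟨hs, hθ⟩)

theorem ct {f : ℝ × ℝ → ℂ} (hf : ContinuousOn f (Rc α β)) {s : ℝ} (hs : s ∈ Icc α β) :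
    ContinuousOn (fun θ => f (s, θ)) (Icc 0 (2 * Real.pi)) :=
  hf.comp (continuous_const.prodMk continuous_id).continuousOn (fun _ hθ => ⟨hs, hθ⟩)

theorem ii_t {f : ℝ × ℝ → ℂ} (hf : ContinuousOn f (Rc α β)) {s : ℝ} (hs : s ∈ Icc α β) :
    IntervalIntegrable (fun θ => f (s, θ)) volume 0 (2 * Real.pi) :=
  ((ct hf hs).mono (uIcc_of_le tp_pos).subset).intervalIntegrable

theorem ii_s {f : ℝ × ℝ → ℂ} (h : α ≤ β) (hf : ContinuousOn f (Rc α β)) {θ : ℝ}
    (hθ : θ ∈ Icc 0 (2 * Real.pi)) : IntervalIntegrable (fun s => f (s, θ)) volume α β :=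
  ((cs hf hθ).mono (uIcc_of_le h).subset).intervalIntegrable

theorem OI_add {f g : ℝ × ℝ → ℂ} {s : ℝ} (hs : s ∈ Icc α β) (hf : ContinuousOn f (Rc α β))
    (hg : ContinuousOn g (Rc α β)) : OI s (fun p => f p + g p) = OI s f + OI s g :=
  intervalIntegral.integral_add (ii_t hf hs) (ii_t hg hs)

theorem OI_sub {f g : ℝ × ℝ → ℂ} {s : ℝ} (hs : s ∈ Icc α β) (hf : ContinuousOn f (Rc α β))
    (hg : ContinuousOn g (Rc α β)) : OI s (fun p => f p - g p) = OI s f - OI s g :=
  intervalIntegral.integral_sub (ii_t hf hs) (ii_t hg hs)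

theorem OI_le {f : ℝ × ℝ → ℂ} {s M : ℝ} (hM : ∀ θ ∈ Icc 0 (2 * Real.pi), ‖f (s, θ)‖ ≤ M) :
    ‖OI s f‖ ≤ 2 * Real.pi * M := by
  have := intervalIntegral.norm_integral_le_of_norm_le_const (a := 0) (b := 2 * Real.pi)
    (f := fun θ => f (s, θ)) (C := M) (fun θ hθ => hM θ (by
      rw [uIoc_of_le tp_pos] at hθ; exact Ioc_subset_Icc_self hθ))
  rw [sub_zero, abs_of_nonneg tp_pos] at this
  rw [OI]; linarith

/-- bound by a function of `s` -/
theorem II_le {f : ℝ × ℝ → ℂ} {M : ℝ → ℝ} (h : α ≤ β) (hM : IntervalIntegrable M volume α β)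
    (hf : ∀ p ∈ Rc α β, ‖f p‖ ≤ M p.1) : ‖II α β f‖ ≤ 2 * Real.pi * ∫ s in α..β, M s := by
  rw [← intervalIntegral.integral_const_mul]
  refine intervalIntegral.norm_integral_le_of_norm_le h (Eventually.of_forall fun s hs => ?_)
    (hM.const_mul _)
  exact OI_le (fun θ hθ => hf (s, θ) ⟨Ioc_subset_Icc_self hs, hθ⟩)

theorem II_le_const {f : ℝ × ℝ → ℂ} {M : ℝ} (h : α ≤ β) (hf : ∀ p ∈ Rc α β, ‖f p‖ ≤ M) :
    ‖II α β f‖ ≤ 2 * Real.pi * ((β - α) * M) := by
  have := II_le (f := f) (M := fun _ => M) h (by simp) hf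
  simpa using this

/-- derivative in `s` on the open interval -/
def Ds (α β : ℝ) (f f' : ℝ × ℝ → ℂ) : Prop :=
  ∀ s ∈ Ioo α β, ∀ θ ∈ Icc 0 (2 * Real.pi), HasDerivAt (fun s => f (s, θ)) (f' (s, θ)) s

/-- derivative in `θ` on the open interval -/
def Dt (α β : ℝ) (f f' : ℝ × ℝ → ℂ) : Prop :=
  ∀ s ∈ Icc α β, ∀ θ ∈ Ioo 0 (2 * Real.pi), HasDerivAt (fun θ => f (s, θ)) (f' (s, θ)) θ

/-- equal values at `θ = 0` and `θ = 2π` -/
def Per (α β : ℝ) (f : ℝ × ℝ → ℂ) : Prop := ∀ s ∈ Icc α β, f (s, 2 * Real.pi) = f (s, 0)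

theorem II_ds {G G' : ℝ × ℝ → ℂ} (h : α ≤ β) (hG : ContinuousOn G (Rc α β))
    (hG' : ContinuousOn G' (Rc α β)) (hd : Ds α β G G') : II α β G' = OI β G - OI α G := by
  rw [II_swap h hG', OI, OI, ← intervalIntegral.integral_sub (ii_t hG ⟨h, le_rfl⟩)
    (ii_t hG ⟨le_rfl, h⟩)]
  refine intervalIntegral.integral_congr (fun θ hθ => ?_)
  rw [uIcc_of_le tp_pos] at hθ
  exact intervalIntegral.integral_eq_sub_of_hasDerivAt_of_le h (cs hG hθ)
    (fun s hs => hd s hs θ hθ) (ii_s h hG' hθ)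

theorem OI_dt {G G' : ℝ × ℝ → ℂ} (hG : ContinuousOn G (Rc α β))
    (hG' : ContinuousOn G' (Rc α β)) (hd : Dt α β G G') (hp : Per α β G) {s : ℝ}
    (hs : s ∈ Icc α β) : OI s G' = 0 := by
  rw [OI, intervalIntegral.integral_eq_sub_of_hasDerivAt_of_le tp_pos (ct hG hs)
    (fun θ hθ => hd s hs θ hθ) (ii_t hG' hs), hp s hs, sub_self]

theorem II_dt {G G' : ℝ × ℝ → ℂ} (h : α ≤ β) (hG : ContinuousOn G (Rc α β))
    (hG' : ContinuousOn G' (Rc α β)) (hd : Dt α β G G') (hp : Per α β G) : II α β G' = 0 := by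
  have : II α β G' = ∫ _ in α..β, (0 : ℂ) := by
    refine intervalIntegral.integral_congr (fun s hs => ?_)
    rw [uIcc_of_le h] at hs
    exact OI_dt hG hG' hd hp hs
  simpa using this

/-- the divergence theorem on the cylinder: `f = e + ∂_s G + ∂_θ H` -/
theorem II_div {f e G G' H H' : ℝ × ℝ → ℂ} (h : α ≤ β) (he : ContinuousOn e (Rc α β))
    (hG : ContinuousOn G (Rc α β)) (hG' : ContinuousOn G' (Rc α β)) (hd : Ds α β G G')
    (hH : ContinuousOn H (Rc α β)) (hH' : ContinuousOn H' (Rc α β)) (hd' : Dt α β H H')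
    (hp : Per α β H) (hf : ∀ p ∈ Rc α β, f p = e p + G' p + H' p) :
    II α β f = II α β e + (OI β G - OI α G) := by
  rw [II_congr h (g := fun p => (e p + G' p) + H' p) hf, II_add h (he.fun_add hG') hH',
    II_add h he hG', II_ds h hG hG' hd, II_dt h hH hH' hd' hp, add_zero]

section UD

variable {F : Type*} [NormedAddCommGroup F] [NormedSpace ℂ F]

/-- `z ↦ u z` has the derivative `u'` at `z₀`, uniformly on `K` -/
def UD {X : Type*} (K : Set X) (u : ℂ → X → F) (u' : X → F) (z₀ : ℂ) : Prop :=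
  ∀ ε > 0, ∀ᶠ z in 𝓝 z₀, ∀ p ∈ K, ‖u z p - u z₀ p - (z - z₀) • u' p‖ ≤ ε * ‖z - z₀‖

theorem UD.at {X : Type*} {K : Set X} {u : ℂ → X → F} {u' : X → F} {z₀ : ℂ} (h : UD K u u' z₀)
    {p : X} (hp : p ∈ K) : HasDerivAt (fun z => u z p) (u' p) z₀ := by
  rw [hasDerivAt_iff_isLittleO, isLittleO_iff]
  intro ε hε
  filter_upwards [h ε hε] with z hz using hz p hp

theorem UD.mono {X : Type*} {K K' : Set X} {u : ℂ → X → F} {u' : X → F} {z₀ : ℂ}
    (h : UD K u u' z₀) (hK : K' ⊆ K) : UD K' u u' z₀ := fun ε hε => by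
  filter_upwards [h ε hε] with z hz p hp using hz p (hK hp)

theorem UD.const {X : Type*} (K : Set X) (u : X → F) (z₀ : ℂ) :
    UD K (fun _ => u) (fun _ => 0) z₀ := fun ε hε =>
  Eventually.of_forall fun z p _ => by simp; positivity

theorem UD.prod {G : Type*} [NormedAddCommGroup G] [NormedSpace ℂ G] {X : Type*} {K : Set X}
    {u : ℂ → X → F} {u' : X → F} {w : ℂ → X → G} {w' : X → G} {z₀ : ℂ} (h : UD K u u' z₀)
    (h' : UD K w w' z₀) : UD K (fun z p => (u z p, w z p)) (fun p => (u' p, w' p)) z₀ :=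
  fun ε hε => by
  filter_upwards [h ε hε, h' ε hε] with z hz hz' p hp
  exact max_le (hz p hp) (hz' p hp)

/-- from a derivative in a Banach space and evaluations of norm `≤ C` -/
theorem UD.of_ev {X B : Type*} [NormedAddCommGroup B] [NormedSpace ℂ B] {K : Set X}
    (ev : X → B →L[ℂ] F) {C : ℝ} (hC : ∀ p ∈ K, ‖ev p‖ ≤ C) {U : ℂ → B} {U' : B} {z₀ : ℂ}
    (h : HasDerivAt U U' z₀) : UD K (fun z p => ev p (U z)) (fun p => ev p U') z₀ := by
  intro ε hε
  have h1 := (isLittleO_iff.1 (hasDerivAt_iff_isLittleO.1 h)) (c := ε / (|C| + 1)) (by positivity)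
  filter_upwards [h1] with z hz p hp
  have e : ev p (U z) - ev p (U z₀) - (z - z₀) • ev p U' = ev p (U z - U z₀ - (z - z₀) • U') := by
    simp
  rw [e]
  calc _ ≤ ‖ev p‖ * ‖U z - U z₀ - (z - z₀) • U'‖ := (ev p).le_opNorm _
    _ ≤ (|C| + 1) * (ε / (|C| + 1) * ‖z - z₀‖) :=
        mul_le_mul ((hC p hp).trans ((le_abs_self C).trans (by linarith))) hz (norm_nonneg _)
          (by positivity)
    _ = ε * ‖z - z₀‖ := by field_simp

/-- chain rule with a `C¹` function, uniformly on a compact set -/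
theorem UD.comp [ProperSpace F] {G : Type*} [NormedAddCommGroup G] [NormedSpace ℂ G] {X : Type*}
    [TopologicalSpace X] {K : Set X} (hK : IsCompact K) {u : ℂ → X → F} {u' : X → F} {z₀ : ℂ}
    (h : UD K u u' z₀) (hu : ContinuousOn (u z₀) K) (hu' : ContinuousOn u' K) {U : Set F}
    (hU : IsOpen U) {Φ : F → G} {Φ' : F → F →L[ℂ] G} (hΦ : ∀ w ∈ U, HasFDerivAt Φ (Φ' w) w)
    (hΦ' : ContinuousOn Φ' U) (hm : MapsTo (u z₀) K U) :
    UD K (fun z p => Φ (u z p)) (fun p => Φ' (u z₀ p) (u' p)) z₀ := by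
  intro ε hε
  have hK1 : IsCompact (u z₀ '' K) := hK.image_of_continuousOn hu
  obtain ⟨ρ, hρ, hρU⟩ := hK1.exists_cthickening_subset_open hU hm.image_subset
  have hK2 : IsCompact (Metric.cthickening ρ (u z₀ '' K)) := hK1.cthickening
  obtain ⟨M, hM⟩ := hK.exists_bound_of_continuousOn hu'
  obtain ⟨N, hN⟩ := hK2.exists_bound_of_continuousOn (hΦ'.mono hρU)
  have huc := hK2.uniformContinuousOn_of_continuous (hΦ'.mono hρU)
  set A := |M| + 1 with hA
  set B := |N| + 1 with hB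
  have hA0 : 0 < A := by positivity
  have hB0 : 0 < B := by positivity
  obtain ⟨η, hη, hηc⟩ := Metric.uniformContinuousOn_iff_le.1 huc (ε / (2 * A)) (by positivity)
  set r := min ρ η with hr
  have hr0 : 0 < r := lt_min hρ hη
  have hz1 : ∀ᶠ z in 𝓝 z₀, ‖z - z₀‖ ≤ r / A := by
    filter_upwards [Metric.closedBall_mem_nhds z₀ (show 0 < r / A by positivity)] with z hz
    simpa [dist_eq_norm] using hz
  filter_upwards [h (min 1 (ε / (2 * B))) (by positivity), hz1] with z hz hz1 p hp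
  have hz := hz p hp
  set w₀ := u z₀ p with hw₀
  set d := u z p - w₀ with hd
  have hd1 : ‖d‖ ≤ A * ‖z - z₀‖ := by
    have e : d = (d - (z - z₀) • u' p) + (z - z₀) • u' p := by abel
    calc ‖d‖ ≤ ‖d - (z - z₀) • u' p‖ + ‖(z - z₀) • u' p‖ := by
          conv_lhs => rw [e]
          exact norm_add_le _ _
      _ ≤ 1 * ‖z - z₀‖ + ‖z - z₀‖ * |M| := by
          refine add_le_add (hz.trans (mul_le_mul_of_nonneg_right (min_le_left _ _)
            (norm_nonneg _))) ?_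
          rw [norm_smul]
          exact mul_le_mul_of_nonneg_left ((hM p hp).trans (le_abs_self M)) (norm_nonneg _)
      _ = A * ‖z - z₀‖ := by rw [hA]; ring
  have hd2 : ‖d‖ ≤ r := by
    refine hd1.trans ?_
    calc A * ‖z - z₀‖ ≤ A * (r / A) := mul_le_mul_of_nonneg_left hz1 hA0.le
      _ = r := by field_simp
  have hball : Metric.closedBall w₀ r ⊆ Metric.cthickening ρ (u z₀ '' K) :=
    (Metric.closedBall_subset_closedBall (min_le_left _ _)).trans
      (Metric.closedBall_subset_cthickening (mem_image_of_mem _ hp) ρ)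
  have hw0 : w₀ ∈ Metric.closedBall w₀ r := Metric.mem_closedBall_self hr0.le
  have hw1 : u z p ∈ Metric.closedBall w₀ r := by simpa [dist_eq_norm] using hd2
  have hmv := (convex_closedBall w₀ r).norm_image_sub_le_of_norm_hasFDerivWithin_le'
    (f := Φ) (f' := Φ') (φ := Φ' w₀) (C := ε / (2 * A))
    (fun w hw => (hΦ w (hρU (hball hw))).hasFDerivWithinAt)
    (fun w hw => by
      have := hηc w (hball hw) w₀ (hball hw0)
        ((Metric.mem_closedBall.1 hw).trans (min_le_right _ _))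
      simpa [dist_eq_norm] using this) hw0 hw1
  have e : Φ (u z p) - Φ w₀ - (z - z₀) • Φ' w₀ (u' p) =
      (Φ (u z p) - Φ w₀ - Φ' w₀ (u z p - w₀)) + Φ' w₀ (d - (z - z₀) • u' p) := by
    rw [map_sub (Φ' w₀) d, map_smul]; simp only [hd]; abel
  rw [e]
  refine (norm_add_le _ _).trans ?_
  have h2 : ‖Φ' w₀ (d - (z - z₀) • u' p)‖ ≤ B * (ε / (2 * B) * ‖z - z₀‖) := by
    refine ((Φ' w₀).le_opNorm _).trans (mul_le_mul ?_ ?_ (norm_nonneg _) hB0.le)
    · exact (hN w₀ (hball hw0)).trans ((le_abs_self N).trans (by linarith))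
    · exact hz.trans (mul_le_mul_of_nonneg_right (min_le_right _ _) (norm_nonneg _))
  have h3 : ε / (2 * A) * ‖u z p - w₀‖ ≤ ε / (2 * A) * (A * ‖z - z₀‖) :=
    mul_le_mul_of_nonneg_left hd1 (by positivity)
  have e1 : ε / (2 * A) * (A * ‖z - z₀‖) = ε / 2 * ‖z - z₀‖ := by field_simp
  have e2 : B * (ε / (2 * B) * ‖z - z₀‖) = ε / 2 * ‖z - z₀‖ := by field_simp
  linarith

end UD

/-- differentiation under the double integral -/
theorem UD.II {u : ℂ → ℝ × ℝ → ℂ} {u' : ℝ × ℝ → ℂ} {z₀ : ℂ} (h : α ≤ β)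
    (hu : UD (Rc α β) u u' z₀) (hc : ∀ᶠ z in 𝓝 z₀, ContinuousOn (u z) (Rc α β))
    (hu' : ContinuousOn u' (Rc α β)) : HasDerivAt (fun z => II α β (u z)) (II α β u') z₀ := by
  rw [hasDerivAt_iff_isLittleO, isLittleO_iff]
  intro ε hε
  have hL : 0 < 2 * Real.pi * (β - α + 1) := by
    have := Real.pi_pos
    have : 0 < β - α + 1 := by linarith
    positivity
  filter_upwards [hu (ε / (2 * Real.pi * (β - α + 1))) (by positivity), hc] with z hz hcz
  have hc0 := hc.self_of_nhds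
  have h3 : ContinuousOn (fun p => (z - z₀) • u' p) (Rc α β) := hu'.fun_const_smul _
  have e : Act.II α β (u z) - Act.II α β (u z₀) - (z - z₀) • Act.II α β u' =
      Act.II α β (fun p => u z p - u z₀ p - (z - z₀) • u' p) := by
    rw [II_sub h (hcz.fun_sub hc0) h3, II_sub h hcz hc0]
    congr 1
    simp only [Act.II, smul_eq_mul, intervalIntegral.integral_const_mul]
  rw [e]
  refine (II_le_const h hz).trans ?_
  have hp := Real.pi_pos
  have hn := norm_nonneg (z - z₀)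
  calc 2 * Real.pi * ((β - α) * (ε / (2 * Real.pi * (β - α + 1)) * ‖z - z₀‖))
      ≤ 2 * Real.pi * ((β - α + 1) * (ε / (2 * Real.pi * (β - α + 1)) * ‖z - z₀‖)) := by
        gcongr; linarith
    _ = ε * ‖z - z₀‖ := by
        have : β - α + 1 ≠ 0 := by linarith
        field_simp

/-- a derivative relation in one real variable passes to the variations -/
theorem ud_deriv {a b : ℝ} {f g : ℂ → ℝ → ℂ} {f' g' : ℝ → ℂ} {z₀ : ℂ}
    (hf : UD (Icc a b) f f' z₀) (hg : UD (Icc a b) g g' z₀)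
    (hc : ∀ᶠ z in 𝓝 z₀, ContinuousOn (f z) (Icc a b) ∧ ContinuousOn (g z) (Icc a b) ∧
      ∀ s ∈ Ioo a b, HasDerivAt (f z) (g z s) s)
    (hg' : ContinuousOn g' (Icc a b)) {s : ℝ} (hs : s ∈ Ioo a b) : HasDerivAt f' (g' s) s := by
  have key : ∀ t ∈ Icc a b, f' t = f' a + ∫ x in a..t, g' x := by
    intro t ht
    have hsub : Icc a t ⊆ Icc a b := Icc_subset_Icc_right ht.2
    have ha : a ∈ Icc a b := ⟨le_rfl, ht.1.trans ht.2⟩
    have ig : ∀ {k : ℝ → ℂ}, ContinuousOn k (Icc a b) → IntervalIntegrable k volume a t :=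
      fun hk => ((hk.mono hsub).mono (uIcc_of_le ht.1).subset).intervalIntegrable
    have h1 : HasDerivAt (fun z => ∫ x in a..t, g z x) (∫ x in a..t, g' x) z₀ := by
      rw [hasDerivAt_iff_isLittleO, isLittleO_iff]
      intro ε hε
      have hL : 0 < t - a + 1 := by linarith [ht.1]
      filter_upwards [hg (ε / (t - a + 1)) (by positivity), hc] with z hz hcz
      have hc0 := hc.self_of_nhds
      have e : (∫ x in a..t, g z x) - (∫ x in a..t, g z₀ x) - (z - z₀) • ∫ x in a..t, g' x =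
          ∫ x in a..t, (g z x - g z₀ x - (z - z₀) • g' x) := by
        rw [intervalIntegral.integral_sub ((ig hcz.2.1).sub (ig hc0.2.1))
          (ig (hg'.fun_const_smul _)), intervalIntegral.integral_sub (ig hcz.2.1) (ig hc0.2.1),
          intervalIntegral.integral_smul]
      rw [e]
      refine (intervalIntegral.norm_integral_le_of_norm_le_const (fun x hx => hz x (hsub (by
        rw [uIoc_of_le ht.1] at hx; exact Ioc_subset_Icc_self hx)))).trans ?_
      rw [abs_of_nonneg (by linarith [ht.1])]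
      have hn := norm_nonneg (z - z₀)
      calc ε / (t - a + 1) * ‖z - z₀‖ * (t - a) ≤ ε / (t - a + 1) * ‖z - z₀‖ * (t - a + 1) := by
            gcongr; linarith
        _ = ε * ‖z - z₀‖ := by field_simp
    have h2 : HasDerivAt (fun z => f z t - f z a) (f' t - f' a) z₀ := (hf.at ht).sub (hf.at ha)
    have h3 : (fun z => f z t - f z a) =ᶠ[𝓝 z₀] fun z => ∫ x in a..t, g z x := by
      filter_upwards [hc] with z hz
      exact (intervalIntegral.integral_eq_sub_of_hasDerivAt_of_le ht.1 (hz.1.mono hsub)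
        (fun x hx => hz.2.2 x ⟨hx.1, hx.2.trans_le ht.2⟩) (ig hz.2.1)).symm
    have := (h2.congr_of_eventuallyEq h3.symm).unique h1
    rw [← this]; ring
  have hn : Icc a b ∈ 𝓝 s := Icc_mem_nhds hs.1 hs.2
  have h4 : HasDerivAt (fun t => f' a + ∫ x in a..t, g' x) (g' s) s := by
    refine HasDerivAt.const_add _ (intervalIntegral.integral_hasDerivAt_right ?_ ?_
      (hg'.continuousAt hn))
    · exact ((hg'.mono (Icc_subset_Icc_right hs.2.le)).mono
        (uIcc_of_le hs.1.le).subset).intervalIntegrable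
    · exact ⟨Icc a b, hn, hg'.aestronglyMeasurable measurableSet_Icc⟩
  refine h4.congr_of_eventuallyEq ?_
  filter_upwards [hn] with t ht using key t ht

end Crest.Agent.N250.Act

end
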