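import Crest.Agent.N250.Act.Lag

/-!
# Row 250, B1 / S7 (helper97): the end action and its first variation (Noether form)

The axis coordinate `x` moves along a complex path `x s`, `k s = x' s`; `p, q, r, m, t` stand for
`v_x, v_θ, v_xx, v_xθ, v_θθ`.
-/

set_option autoImplicit false
open MeasureTheory Set Filter Topology Complex

noncomputable section

namespace Crest.Agent.N250.Act

variable {α β : ℝ}

local macro "cpw" : tactic => `(tactic| repeat' first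
  | assumption
  | exact continuousOn_const
  | apply ContinuousOn.fun_add
  | apply ContinuousOn.fun_sub
  | apply ContinuousOn.fun_mul)

/-- first order jets along the path `x` -/
structure J1 (α β : ℝ) (x k : ℝ → ℂ) (v p q : ℝ × ℝ → ℂ) : Prop where
  cx : ContinuousOn x (Icc α β)
  ck : ContinuousOn k (Icc α β)
  dx : ∀ s ∈ Ioo α β, HasDerivAt x (k s) s
  cv : ContinuousOn v (Rc α β)
  cp : ContinuousOn p (Rc α β)
  cq : ContinuousOn q (Rc α β)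
  dsv : Ds α β v (fun z => k z.1 * p z)
  dtv : Dt α β v q
  pv : Per α β v
  pp : Per α β p
  pq : Per α β q

/-- second order jets along the path `x` -/
structure J2 (α β : ℝ) (x k : ℝ → ℂ) (v p q r m t : ℝ × ℝ → ℂ) : Prop extends J1 α β x k v p q where
  cr : ContinuousOn r (Rc α β)
  cm : ContinuousOn m (Rc α β)
  ct : ContinuousOn t (Rc α β)
  dsp : Ds α β p (fun z => k z.1 * r z)
  dsq : Ds α β q (fun z => k z.1 * m z)
  dtp : Dt α β p m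
  dtq : Dt α β q t

/-- admissible on the rectangle -/
def OkOn (α β : ℝ) (v p q : ℝ × ℝ → ℂ) : Prop := ∀ z ∈ Rc α β, Ok (v z) (p z) (q z)

/-- the action `∬ χ √Q E dx dθ` with a fixed cut-off `χ` -/
def act (α β : ℝ) (χ x k : ℝ → ℂ) (v p q : ℝ × ℝ → ℂ) : ℂ :=
  II α β fun z => χ z.1 * (Lag (x z.1) (v z) (p z) (q z) * k z.1)

/-- a `C¹` cut-off -/
structure Cut (α β : ℝ) (χ χ' : ℝ → ℂ) : Prop where
  c : ContinuousOn χ (Icc α β)
  c' : ContinuousOn χ' (Icc α β)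
  d : ∀ s ∈ Ioo α β, HasDerivAt χ (χ' s) s

theorem cut_one : Cut α β (fun _ => 1) (fun _ => 0) :=
  ⟨continuousOn_const, continuousOn_const, fun s _ => hasDerivAt_const s _⟩

/-- the boundary 1-form at `s`: `∮ L_p δv + (L - p L_p) δx` -/
def flux (s : ℝ) (x ξ : ℝ → ℂ) (v p q δ : ℝ × ℝ → ℂ) : ℂ :=
  OI s fun z => Lp (x z.1) (v z) (p z) (q z) * (δ z - p z * ξ z.1) +
    Lag (x z.1) (v z) (p z) (q z) * ξ z.1

/-- the bulk term of the first variation -/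
def bulk (α β : ℝ) (χ x k ξ : ℝ → ℂ) (v p q r m t δ : ℝ × ℝ → ℂ) : ℂ :=
  II α β fun z => χ z.1 * (-(Ef (x z.1) (v z) / Wf (v z) (p z) (q z) *
    Eqn (x z.1) (v z) (p z) (q z) (r z) (m z) (t z)) * (δ z - p z * ξ z.1) * k z.1)

/-- the contribution of the cut-off: `∬ χ' (L_p δv + (L - p L_p) δx)` -/
def strip (α β : ℝ) (χ' x ξ : ℝ → ℂ) (v p q δ : ℝ × ℝ → ℂ) : ℂ :=
  II α β fun z => χ' z.1 * (Lp (x z.1) (v z) (p z) (q z) * (δ z - p z * ξ z.1) +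
    Lag (x z.1) (v z) (p z) (q z) * ξ z.1)

theorem strip_zero {x ξ : ℝ → ℂ} {v p q δ : ℝ × ℝ → ℂ} :
    strip α β (fun _ => 0) x ξ v p q δ = 0 := by
  simp [strip, II]

theorem c1 {x : ℝ → ℂ} (hx : ContinuousOn x (Icc α β)) :
    ContinuousOn (fun z : ℝ × ℝ => x z.1) (Rc α β) :=
  hx.comp continuous_fst.continuousOn (fun _ hz => hz.1)

theorem bulk_zero {χ x k ξ : ℝ → ℂ} {v p q r m t δ : ℝ × ℝ → ℂ} (h : α ≤ β)
    (he : ∀ z ∈ Rc α β, χ z.1 = 0 ∨ Eqn (x z.1) (v z) (p z) (q z) (r z) (m z) (t z) = 0) :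
    bulk α β χ x k ξ v p q r m t δ = 0 := by
  rw [bulk, II_congr h (g := fun _ => 0) (fun z hz => by rcases he z hz with h | h <;> simp [h]),
    II_zero]

/-- the first variation formula -/
theorem fv {χ χ' x k ξ ξ' : ℝ → ℂ} {v p q r m t δ δp δq : ℝ × ℝ → ℂ} (h : α ≤ β)
    (C : Cut α β χ χ') (J : J2 α β x k v p q r m t) (ho : OkOn α β v p q)
    (cξ : ContinuousOn ξ (Icc α β)) (cξ' : ContinuousOn ξ' (Icc α β))
    (dξ : ∀ s ∈ Ioo α β, HasDerivAt ξ (ξ' s) s) (cδ : ContinuousOn δ (Rc α β))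
    (cδp : ContinuousOn δp (Rc α β)) (cδq : ContinuousOn δq (Rc α β))
    (ds : Ds α β δ fun z => ξ' z.1 * p z + k z.1 * δp z) (dt : Dt α β δ δq) (pδ : Per α β δ) :
    II α β (fun z => χ z.1 * ((Lx (x z.1) (v z) (p z) (q z) * ξ z.1 +
        Lv (x z.1) (v z) (p z) (q z) * δ z +
        Lp (x z.1) (v z) (p z) (q z) * δp z + Lq (x z.1) (v z) (p z) (q z) * δq z) * k z.1 +
        Lag (x z.1) (v z) (p z) (q z) * ξ' z.1)) =
      bulk α β χ x k ξ v p q r m t δ - strip α β χ' x ξ v p q δ +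
        (χ β * flux β x ξ v p q δ - χ α * flux α x ξ v p q δ) := by
  have hχ := c1 C.c
  have hχ' := c1 C.c'
  have hx := c1 J.cx
  have hk := c1 J.ck
  have hξ := c1 cξ
  have hξ' := c1 cξ'
  have hv := J.cv
  have hp := J.cp
  have hq := J.cq
  have hr := J.cr
  have hm := J.cm
  have ht := J.ct
  have h1 := Lag_c hx hv hp hq ho
  have h2 := Lx_c hx hv hp hq ho
  have h3 := Lv_c hx hv hp hq ho
  have h4 := Lp_c hx hv hp hq ho
  have h5 := Lq_c hx hv hp hq ho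
  have h6 := dLp_c hx hv hp hq (x' := fun _ => 1) continuousOn_const hp hr hm ho
  have h7 := dLq_c hx hv hp hq (x' := fun _ => 0) continuousOn_const hq hm ht ho
  have hb : bulk α β χ x k ξ v p q r m t δ = II α β fun z => χ z.1 *
      ((Lv (x z.1) (v z) (p z) (q z) - dLp (x z.1) (v z) (p z) (q z) 1 (p z) (r z) (m z) -
      dLq (x z.1) (v z) (p z) (q z) 0 (q z) (m z) (t z)) * (δ z - p z * ξ z.1) * k z.1) :=
    II_congr h (fun z hz => by simp only [el_eq _ _ _ (ho z hz)])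
  have hf : ∀ s, χ s * flux s x ξ v p q δ = OI s fun z => χ z.1 *
      (Lp (x z.1) (v z) (p z) (q z) * (δ z - p z * ξ z.1) +
        Lag (x z.1) (v z) (p z) (q z) * ξ z.1) := fun s => by
    simp only [flux, OI, intervalIntegral.integral_const_mul]
  rw [hb, hf, hf, strip, ← II_sub h (by cpw) (by cpw)]
  refine II_div h
    (G' := fun z => χ' z.1 * (Lp (x z.1) (v z) (p z) (q z) * (δ z - p z * ξ z.1) +
      Lag (x z.1) (v z) (p z) (q z) * ξ z.1) + χ z.1 *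
      (k z.1 * dLp (x z.1) (v z) (p z) (q z) 1 (p z) (r z) (m z) * (δ z - p z * ξ z.1) +
      Lp (x z.1) (v z) (p z) (q z) * (k z.1 * (δp z - r z * ξ z.1)) +
      (k z.1 * (Lx (x z.1) (v z) (p z) (q z) + Lv (x z.1) (v z) (p z) (q z) * p z +
        Lp (x z.1) (v z) (p z) (q z) * r z + Lq (x z.1) (v z) (p z) (q z) * m z) * ξ z.1 +
        Lag (x z.1) (v z) (p z) (q z) * ξ' z.1)))
    (H := fun z => χ z.1 * (Lq (x z.1) (v z) (p z) (q z) * (δ z - p z * ξ z.1) * k z.1))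
    (H' := fun z => χ z.1 *
      ((dLq (x z.1) (v z) (p z) (q z) 0 (q z) (m z) (t z) * (δ z - p z * ξ z.1) +
      Lq (x z.1) (v z) (p z) (q z) * (δq z - m z * ξ z.1)) * k z.1))
    (by cpw) (by cpw) (by cpw) ?_ (by cpw) (by cpw) ?_ ?_ ?_
  · intro s hs θ hθ
    have hz : (s, θ) ∈ Rc α β := ⟨Ioo_subset_Icc_self hs, hθ⟩
    have a1 := J.dx s hs
    have a2 := J.dsv s hs θ hθ
    have a3 := J.dsp s hs θ hθ
    have a4 := J.dsq s hs θ hθ
    have a5 := dξ s hs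
    have a6 := ds s hs θ hθ
    have b1 := Lp_hd a1 a2 a3 a4 (ho _ hz)
    have b2 := Lag_hd a1 a2 a3 a4 (ho _ hz)
    refine HasDerivAt.congr_deriv ((C.d s hs).fun_mul
      ((b1.fun_mul (a6.fun_sub (a3.fun_mul a5))).fun_add (b2.fun_mul a5))) ?_
    have e := dLp_smul (x s) (v (s, θ)) (p (s, θ)) (q (s, θ)) (k s) 1 (p (s, θ)) (r (s, θ))
      (m (s, θ))
    rw [mul_one] at e
    simp only [e]
    ring
  · intro s hs θ hθ
    have hz : (s, θ) ∈ Rc α β := ⟨hs, Ioo_subset_Icc_self hθ⟩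
    have a2 := J.dtv s hs θ hθ
    have a3 := J.dtp s hs θ hθ
    have a4 := J.dtq s hs θ hθ
    have a6 := dt s hs θ hθ
    have b1 := Lq_hd (hasDerivAt_const θ (x s)) a2 a3 a4 (ho _ hz)
    exact ((b1.fun_mul (a6.fun_sub (a3.mul_const (ξ s)))).mul_const (k s)).const_mul (χ s)
  · intro s hs
    simp only [J.pv s hs, J.pp s hs, J.pq s hs, pδ s hs]
  · intro z _
    ring

/-- the parametric Lagrangian on `ℂ⁵` -/
def PL (w : ℂ × ℂ × ℂ × ℂ × ℂ) : ℂ := Lag w.1 w.2.2.1 w.2.2.2.1 w.2.2.2.2 * w.2.1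

def PU : Set (ℂ × ℂ × ℂ × ℂ × ℂ) := {w | Ok w.2.2.1 w.2.2.2.1 w.2.2.2.2}

theorem isOpen_PU : IsOpen PU := isOpen_ok.preimage (continuous_snd.comp continuous_snd)

theorem PL_cd : ContDiffOn ℂ 1 PL PU := by
  intro w hw
  refine ContDiffAt.contDiffWithinAt ?_
  have h0 : 2 * w.2.2.1 ≠ 0 := mul_ne_zero two_ne_zero hw.1
  have hQ : ContDiffAt ℂ 1 (fun w : ℂ × ℂ × ℂ × ℂ × ℂ => Qf w.2.2.1 w.2.2.2.1 w.2.2.2.2) w := by
    unfold Qf
    fun_prop (disch := assumption)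
  have hs : ContDiffAt ℂ 1 Complex.sqrt (Qf w.2.2.1 w.2.2.2.1 w.2.2.2.2) :=
    (differentiableOn_sqrt.analyticAt (isOpen_slitPlane.mem_nhds hw.2)).contDiffAt
  have hW : ContDiffAt ℂ 1 (fun w : ℂ × ℂ × ℂ × ℂ × ℂ => Wf w.2.2.1 w.2.2.2.1 w.2.2.2.2) w :=
    hs.comp w hQ
  unfold PL Lag Ef
  fun_prop

theorem PL_fd {w : ℂ × ℂ × ℂ × ℂ × ℂ} (hw : w ∈ PU) (d : ℂ × ℂ × ℂ × ℂ × ℂ) :
    fderiv ℂ PL w d = (Lx w.1 w.2.2.1 w.2.2.2.1 w.2.2.2.2 * d.1 +
      Lv w.1 w.2.2.1 w.2.2.2.1 w.2.2.2.2 * d.2.2.1 + Lp w.1 w.2.2.1 w.2.2.2.1 w.2.2.2.2 * d.2.2.2.1 +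
      Lq w.1 w.2.2.1 w.2.2.2.1 w.2.2.2.2 * d.2.2.2.2) * w.2.1 +
      Lag w.1 w.2.2.1 w.2.2.2.1 w.2.2.2.2 * d.2.1 := by
  have hd : DifferentiableAt ℂ PL w :=
    (PL_cd.contDiffAt (isOpen_PU.mem_nhds hw)).differentiableAt one_ne_zero
  have hl : HasDerivAt (fun τ : ℂ => w + τ • d) d 0 := by
    simpa using ((hasDerivAt_id (0 : ℂ)).smul_const d).const_add w
  have h1 : HasDerivAt (fun τ : ℂ => PL (w + τ • d)) (fderiv ℂ PL w d) 0 :=
    hd.hasFDerivAt.comp_hasDerivAt_of_eq (0 : ℂ) hl (by simp)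
  have a : ∀ a b : ℂ, HasDerivAt (fun τ : ℂ => a + τ * b) b 0 := fun a b => by
    simpa using ((hasDerivAt_id (0 : ℂ)).mul_const b).const_add a
  have h2 := (Lag_hd (a w.1 d.1) (a w.2.2.1 d.2.2.1) (a w.2.2.2.1 d.2.2.2.1)
    (a w.2.2.2.2 d.2.2.2.2) (by simpa [PU] using hw)).fun_mul (a w.2.1 d.2.1)
  have h3 := h1.unique h2
  simpa using h3

theorem UD.fst {x : ℂ → ℝ → ℂ} {ξ : ℝ → ℂ} {z₀ : ℂ} (h : UD (Icc α β) x ξ z₀) :
    UD (Rc α β) (fun z w => x z w.1) (fun w => ξ w.1) z₀ := fun ε hε => by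
  filter_upwards [h ε hε] with z hz w hw using hz w.1 hw.1

theorem UD.sl_s {u : ℂ → ℝ × ℝ → ℂ} {u' : ℝ × ℝ → ℂ} {z₀ : ℂ} (h : UD (Rc α β) u u' z₀) {θ : ℝ}
    (hθ : θ ∈ Icc 0 (2 * Real.pi)) :
    UD (Icc α β) (fun z s => u z (s, θ)) (fun s => u' (s, θ)) z₀ := fun ε hε => by
  filter_upwards [h ε hε] with z hz s hs using hz (s, θ) ⟨hs, hθ⟩

theorem UD.sl_t {u : ℂ → ℝ × ℝ → ℂ} {u' : ℝ × ℝ → ℂ} {z₀ : ℂ} (h : UD (Rc α β) u u' z₀) {s : ℝ}
    (hs : s ∈ Icc α β) :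
    UD (Icc 0 (2 * Real.pi)) (fun z θ => u z (s, θ)) (fun θ => u' (s, θ)) z₀ := fun ε hε => by
  filter_upwards [h ε hε] with z hz θ hθ using hz (s, θ) ⟨hs, hθ⟩

theorem UD.mul {X : Type*} [TopologicalSpace X] {K : Set X} (hK : IsCompact K)
    {u w : ℂ → X → ℂ} {u' w' : X → ℂ} {z₀ : ℂ} (h : UD K u u' z₀) (h' : UD K w w' z₀)
    (cu : ContinuousOn (u z₀) K) (cu' : ContinuousOn u' K) (cw : ContinuousOn (w z₀) K)
    (cw' : ContinuousOn w' K) :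
    UD K (fun z y => u z y * w z y) (fun y => u' y * w z₀ y + u z₀ y * w' y) z₀ := by
  have := (h.prod h').comp hK (cu.prodMk cw) (cu'.prodMk cw') isOpen_univ
    (Φ := fun y : ℂ × ℂ => y.1 * y.2)
    (Φ' := fun y => y.1 • ContinuousLinearMap.snd ℂ ℂ ℂ + y.2 • ContinuousLinearMap.fst ℂ ℂ ℂ)
    (fun y _ => hasFDerivAt_fst.mul hasFDerivAt_snd) (by fun_prop) (mapsTo_univ _ _)
  intro ε hε
  filter_upwards [this ε hε] with z hz y hy
  convert hz y hy using 4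
  simp; ring

/-- **First variation of the action along any family** (the path may move):
`dA = bulk - strip + far form - near form`. -/
theorem act_deriv {x k : ℂ → ℝ → ℂ} {v p q : ℂ → ℝ × ℝ → ℂ} {χ χ' ξ ξ' : ℝ → ℂ}
    {r m t δ δp δq : ℝ × ℝ → ℂ} {z₀ : ℂ} (h : α ≤ β) (C : Cut α β χ χ')
    (J : ∀ᶠ z in 𝓝 z₀, J1 α β (x z) (k z) (v z) (p z) (q z))
    (J₀ : J2 α β (x z₀) (k z₀) (v z₀) (p z₀) (q z₀) r m t) (ho : OkOn α β (v z₀) (p z₀) (q z₀))
    (ux : UD (Icc α β) x ξ z₀) (uk : UD (Icc α β) k ξ' z₀) (uv : UD (Rc α β) v δ z₀)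
    (up : UD (Rc α β) p δp z₀) (uq : UD (Rc α β) q δq z₀)
    (cξ : ContinuousOn ξ (Icc α β)) (cξ' : ContinuousOn ξ' (Icc α β))
    (cδ : ContinuousOn δ (Rc α β)) (cδp : ContinuousOn δp (Rc α β))
    (cδq : ContinuousOn δq (Rc α β)) :
    HasDerivAt (fun z => act α β χ (x z) (k z) (v z) (p z) (q z))
      (bulk α β χ (x z₀) (k z₀) ξ (v z₀) (p z₀) (q z₀) r m t δ -
        strip α β χ' (x z₀) ξ (v z₀) (p z₀) (q z₀) δ +
        (χ β * flux β (x z₀) ξ (v z₀) (p z₀) (q z₀) δ -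
          χ α * flux α (x z₀) ξ (v z₀) (p z₀) (q z₀) δ)) z₀ := by
  have hK := isCompact_Rc α β
  have hU := ux.fst.prod (uk.fst.prod (uv.prod (up.prod uq)))
  have c0 : ∀ {z}, J1 α β (x z) (k z) (v z) (p z) (q z) → ContinuousOn
      (fun w : ℝ × ℝ => (x z w.1, k z w.1, v z w, p z w, q z w)) (Rc α β) := fun j =>
    (c1 j.cx).prodMk ((c1 j.ck).prodMk (j.cv.prodMk (j.cp.prodMk j.cq)))
  have c' : ContinuousOn (fun w : ℝ × ℝ => (ξ w.1, ξ' w.1, δ w, δp w, δq w)) (Rc α β) :=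
    (c1 cξ).prodMk ((c1 cξ').prodMk (cδ.prodMk (cδp.prodMk cδq)))
  have hfd : ContinuousOn (fderiv ℂ PL) PU := PL_cd.continuousOn_fderiv_of_isOpen isOpen_PU le_rfl
  have hc := hU.comp hK (c0 J₀.toJ1) c' isOpen_PU (Φ := PL) (Φ' := fderiv ℂ PL)
    (fun w hw => ((PL_cd.contDiffAt (isOpen_PU.mem_nhds hw)).differentiableAt
      one_ne_zero).hasFDerivAt) hfd (fun w hw => ho w hw)
  -- nearby members are admissible
  have hok : ∀ᶠ z in 𝓝 z₀, OkOn α β (v z) (p z) (q z) := by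
    have hK1 := hK.image_of_continuousOn (c0 J₀.toJ1)
    obtain ⟨ρ, hρ, hρU⟩ := hK1.exists_cthickening_subset_open isOpen_PU
      (by rintro _ ⟨w, hw, rfl⟩; exact ho w hw)
    obtain ⟨M, hM⟩ := hK.exists_bound_of_continuousOn c'
    have hA : 0 < |M| + 1 := by positivity
    filter_upwards [hU 1 one_pos, Metric.closedBall_mem_nhds z₀ (div_pos hρ hA)] with z hz hz1 w hw
    have hz1' : ‖z - z₀‖ ≤ ρ / (|M| + 1) := by simpa [dist_eq_norm] using hz1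
    refine hρU (Metric.mem_cthickening_of_dist_le (x z w.1, k z w.1, v z w, p z w, q z w) _ ρ _
      (mem_image_of_mem _ hw) ?_)
    rw [dist_eq_norm]
    have e1 := hz w hw
    have e2 := norm_smul (z - z₀) (ξ w.1, ξ' w.1, δ w, δp w, δq w)
    have e3 := mul_le_mul_of_nonneg_left ((hM w hw).trans (le_abs_self M)) (norm_nonneg (z - z₀))
    have e4 := norm_sub_norm_le ((x z w.1, k z w.1, v z w, p z w, q z w) -
      (x z₀ w.1, k z₀ w.1, v z₀ w, p z₀ w, q z₀ w)) ((z - z₀) • (ξ w.1, ξ' w.1, δ w, δp w, δq w))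
    have e5 : ‖z - z₀‖ * (|M| + 1) ≤ ρ := (le_div_iff₀ hA).1 hz1'
    linarith
  have c2 := (hfd.comp (c0 J₀.toJ1) (fun w hw => ho w hw)).clm_apply c'
  have c3 := PL_cd.continuousOn.comp (c0 J₀.toJ1) (fun w hw => ho w hw)
  have hc' := (UD.const (Rc α β) (fun w : ℝ × ℝ => χ w.1) z₀).mul hK hc (c1 C.c)
    continuousOn_const c3 c2
  have hI := hc'.II h (by
    filter_upwards [J, hok] with z j o
    exact (c1 C.c).fun_mul (PL_cd.continuousOn.comp (c0 j) (fun w hw => o w hw)))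
    ((continuousOn_const.fun_mul c3).fun_add ((c1 C.c).fun_mul c2))
  refine HasDerivAt.congr_deriv hI ?_
  rw [II_congr h (fun w hw => by rw [PL_fd (ho w hw), zero_mul, zero_add])]
  refine fv h C J₀ ho cξ cξ' (fun s hs => ?_) cδ cδp cδq (fun s hs θ hθ => ?_) (fun s hs θ hθ => ?_)
    (fun s hs => ?_)
  · exact ud_deriv ux uk (J.mono fun z j => ⟨j.cx, j.ck, j.dx⟩) cξ' hs
  · refine ud_deriv (uv.sl_s hθ) (uk.mul isCompact_Icc (up.sl_s hθ) J₀.ck cξ' (cs J₀.cp hθ)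
      (cs cδp hθ)) (J.mono fun z j => ⟨cs j.cv hθ, j.ck.fun_mul (cs j.cp hθ),
        fun s hs => j.dsv s hs θ hθ⟩) ?_ hs
    exact (cξ'.fun_mul (cs J₀.cp hθ)).fun_add (J₀.ck.fun_mul (cs cδp hθ))
  · exact ud_deriv (uv.sl_t hs) (uq.sl_t hs) (J.mono fun z j => ⟨ct j.cv hs, ct j.cq hs,
      fun θ hθ => j.dtv s hs θ hθ⟩) (ct cδq hs) hθ
  · have a1 := uv.at (p := (s, 2 * Real.pi)) ⟨hs, tp_pos, le_rfl⟩
    have a2 := uv.at (p := (s, 0)) ⟨hs, le_rfl, tp_pos⟩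
    exact (a1.congr_of_eventuallyEq (J.mono fun z j => (j.pv s hs).symm)).unique a2

/-- exact difference formula for two graphs over the same path -/
theorem act_sub {χ χ' x k : ℝ → ℂ} {v p q r m t v₁ p₁ q₁ : ℝ × ℝ → ℂ} (h : α ≤ β)
    (C : Cut α β χ χ') (J : J2 α β x k v p q r m t) (ho : OkOn α β v p q) (J₁ : J1 α β x k v₁ p₁ q₁)
    (ho₁ : OkOn α β v₁ p₁ q₁) :
    act α β χ x k v₁ p₁ q₁ - act α β χ x k v p q =
      bulk α β χ x k (fun _ => 0) v p q r m t (fun z => v₁ z - v z) -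
      strip α β χ' x (fun _ => 0) v p q (fun z => v₁ z - v z) +
      (χ β * flux β x (fun _ => 0) v p q (fun z => v₁ z - v z) -
        χ α * flux α x (fun _ => 0) v p q (fun z => v₁ z - v z)) +
      II α β fun z => χ z.1 * ((Lag (x z.1) (v₁ z) (p₁ z) (q₁ z) - Lag (x z.1) (v z) (p z) (q z) -
        (Lv (x z.1) (v z) (p z) (q z) * (v₁ z - v z) + Lp (x z.1) (v z) (p z) (q z) * (p₁ z - p z) +
          Lq (x z.1) (v z) (p z) (q z) * (q₁ z - q z))) * k z.1) := by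
  have hχ := c1 C.c
  have hx := c1 J.cx
  have hk := c1 J.ck
  have hv := J.cv
  have hp := J.cp
  have hq := J.cq
  have hv₁ := J₁.cv
  have hp₁ := J₁.cp
  have hq₁ := J₁.cq
  have h1 := Lag_c hx hv hp hq ho
  have h1' := Lag_c hx hv₁ hp₁ hq₁ ho₁
  have h2 := Lx_c hx hv hp hq ho
  have h3 := Lv_c hx hv hp hq ho
  have h4 := Lp_c hx hv hp hq ho
  have h5 := Lq_c hx hv hp hq ho
  rw [← fv h C J ho (ξ := fun _ => 0) (ξ' := fun _ => 0) (δp := fun z => p₁ z - p z)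
    (δq := fun z => q₁ z - q z) continuousOn_const continuousOn_const
    (fun s _ => hasDerivAt_const s _) (by fun_prop) (by fun_prop) (by fun_prop)
    (fun s hs θ hθ => ((J₁.dsv s hs θ hθ).fun_sub (J.dsv s hs θ hθ)).congr_deriv (by ring))
    (fun s hs θ hθ => (J₁.dtv s hs θ hθ).fun_sub (J.dtv s hs θ hθ))
    (fun s hs => by simp only [J.pv s hs, J₁.pv s hs]), act, act,
    ← II_sub h (by cpw) (by cpw), ← II_add h (by cpw) (by cpw)]
  exact II_congr h (fun z _ => by ring)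

end Crest.Agent.N250.Act

end
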