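import Crest.Agent.N250.Act.FV

/-!
# Row 250, B1 / S7 (helper97): the action along holomorphic families with values in a Banach space
-/

set_option autoImplicit false
open MeasureTheory Set Filter Topology Complex Asymptotics

noncomputable section

namespace Crest.Agent.N250.Act

variable {α β : ℝ}

/-- uniform differentiability of a `C¹` function near a compact set -/
theorem unif_fd {F G : Type*} [NormedAddCommGroup F] [NormedSpace ℂ F] [ProperSpace F]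
    [NormedAddCommGroup G] [NormedSpace ℂ G] {K U : Set F} (hK : IsCompact K) (hU : IsOpen U)
    (hKU : K ⊆ U) {Φ : F → G} {Φ' : F → F →L[ℂ] G} (hΦ : ∀ w ∈ U, HasFDerivAt Φ (Φ' w) w)
    (hΦ' : ContinuousOn Φ' U) {ε : ℝ} (hε : 0 < ε) :
    ∃ r > 0, ∀ w₀ ∈ K, ∀ w, ‖w - w₀‖ ≤ r → w ∈ U ∧ ‖Φ w - Φ w₀ - Φ' w₀ (w - w₀)‖ ≤ ε * ‖w - w₀‖ := by
  obtain ⟨ρ, hρ, hρU⟩ := hK.exists_cthickening_subset_open hU hKU
  have hK2 : IsCompact (Metric.cthickening ρ K) := hK.cthickening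
  have huc := hK2.uniformContinuousOn_of_continuous (hΦ'.mono hρU)
  obtain ⟨η, hη, hηc⟩ := Metric.uniformContinuousOn_iff_le.1 huc ε hε
  refine ⟨min ρ η, lt_min hρ hη, fun w₀ h0 w hw => ?_⟩
  have hball : Metric.closedBall w₀ (min ρ η) ⊆ Metric.cthickening ρ K :=
    (Metric.closedBall_subset_closedBall (min_le_left _ _)).trans
      (Metric.closedBall_subset_cthickening h0 ρ)
  have hw0 : w₀ ∈ Metric.closedBall w₀ (min ρ η) := Metric.mem_closedBall_self (lt_min hρ hη).le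
  have hw1 : w ∈ Metric.closedBall w₀ (min ρ η) := by simpa [dist_eq_norm] using hw
  refine ⟨hρU (hball hw1), ?_⟩
  exact (convex_closedBall w₀ _).norm_image_sub_le_of_norm_hasFDerivWithin_le'
    (f := Φ) (f' := Φ') (φ := Φ' w₀) (C := ε)
    (fun y hy => (hΦ y (hρU (hball hy))).hasFDerivWithinAt)
    (fun y hy => by
      have := hηc y (hball hy) w₀ (hball hw0)
        ((Metric.mem_closedBall.1 hy).trans (min_le_right _ _))
      simpa [dist_eq_norm] using this) hw0 hw1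

section nem

variable {B F : Type*} [NormedAddCommGroup B] [NormedSpace ℂ B] [NormedAddCommGroup F]
  [NormedSpace ℂ F] [ProperSpace F]

/-- `b ↦ ∬ χ Φ (ev b)` is differentiable -/
theorem II_diffAt (h : α ≤ β) (ev : ℝ × ℝ → B →L[ℂ] F) {C : ℝ} (hC : ∀ w ∈ Rc α β, ‖ev w‖ ≤ C)
    (hc : ∀ b, ContinuousOn (fun w => ev w b) (Rc α β)) {χ : ℝ × ℝ → ℂ}
    (hχ : ContinuousOn χ (Rc α β)) {U : Set F} (hU : IsOpen U) {Φ : F → ℂ}
    (hΦ : ContDiffOn ℂ 1 Φ U) {b₀ : B} (hb : ∀ w ∈ Rc α β, ev w b₀ ∈ U) :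
    DifferentiableAt ℂ (fun b => II α β fun w => χ w * Φ (ev w b)) b₀ := by
  have hK := isCompact_Rc α β
  have hfd : ContinuousOn (fderiv ℂ Φ) U := hΦ.continuousOn_fderiv_of_isOpen hU le_rfl
  have hd : ∀ w ∈ U, HasFDerivAt Φ (fderiv ℂ Φ w) w := fun w hw =>
    ((hΦ.contDiffAt (hU.mem_nhds hw)).differentiableAt one_ne_zero).hasFDerivAt
  have c0 : ContinuousOn (fun w => fderiv ℂ Φ (ev w b₀)) (Rc α β) := hfd.comp (hc b₀) hb
  have c1' : ∀ d, ContinuousOn (fun w => χ w * fderiv ℂ Φ (ev w b₀) (ev w d)) (Rc α β) :=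
    fun d => hχ.fun_mul (c0.clm_apply (hc d))
  obtain ⟨M, hM⟩ := hK.exists_bound_of_continuousOn hχ
  obtain ⟨N, hN⟩ := hK.exists_bound_of_continuousOn c0
  have hev : ∀ w ∈ Rc α β, ∀ d, ‖ev w d‖ ≤ (|C| + 1) * ‖d‖ := fun w hw d =>
    ((ev w).le_opNorm d).trans (mul_le_mul_of_nonneg_right
      ((hC w hw).trans ((le_abs_self C).trans (by linarith))) (norm_nonneg _))
  have hM' : ∀ w ∈ Rc α β, ‖χ w‖ ≤ |M| + 1 := fun w hw =>
    (hM w hw).trans ((le_abs_self M).trans (by linarith))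
  let L₀ : B →ₗ[ℂ] ℂ :=
    { toFun := fun d => II α β fun w => χ w * fderiv ℂ Φ (ev w b₀) (ev w d)
      map_add' := fun d e => by
        rw [← II_add h (c1' d) (c1' e)]
        exact II_congr h (fun w _ => by simp [mul_add])
      map_smul' := fun c d => by
        simp only [II, map_smul, smul_eq_mul, RingHom.id_apply, mul_left_comm _ c,
          intervalIntegral.integral_const_mul] }
  let L : B →L[ℂ] ℂ := L₀.mkContinuous
    (2 * Real.pi * ((β - α) * ((|M| + 1) * (|N| * (|C| + 1))))) (fun d => by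
      refine (II_le_const (M := (|M| + 1) * (|N| * ((|C| + 1) * ‖d‖))) h
        (fun w hw => ?_)).trans (le_of_eq (by ring))
      rw [norm_mul]
      refine mul_le_mul (hM' w hw) (((fderiv ℂ Φ (ev w b₀)).le_opNorm _).trans
        (mul_le_mul ((hN w hw).trans (le_abs_self N)) (hev w hw d) (norm_nonneg _)
          (abs_nonneg _))) (norm_nonneg _) (by positivity))
  refine HasFDerivAt.differentiableAt (f' := L) ?_
  rw [hasFDerivAt_iff_isLittleO, isLittleO_iff]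
  intro ε hε
  have hp := Real.pi_pos
  have hl : 0 < β - α + 1 := by linarith
  set A := 2 * Real.pi * ((β - α + 1) * ((|M| + 1) * (|C| + 1))) with hA
  have hA0 : 0 < A := by positivity
  obtain ⟨r, hr, hrr⟩ := unif_fd (hK.image_of_continuousOn (hc b₀)) hU
    (by rintro _ ⟨w, hw, rfl⟩; exact hb w hw) hd hfd (div_pos hε hA0)
  filter_upwards [Metric.closedBall_mem_nhds b₀ (show 0 < r / (|C| + 1) by positivity)] with b hb1
  have hb2 : ‖b - b₀‖ ≤ r / (|C| + 1) := by simpa [dist_eq_norm] using hb1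
  have h1 : ∀ w ∈ Rc α β, ‖ev w b - ev w b₀‖ ≤ r := fun w hw => by
    rw [← map_sub]
    refine (hev w hw _).trans ?_
    rw [mul_comm]
    exact (le_div_iff₀ (by positivity)).1 hb2
  have h2 := fun w hw => hrr _ (mem_image_of_mem _ hw) (ev w b) (h1 w hw)
  have c2 : ContinuousOn (fun w => χ w * Φ (ev w b)) (Rc α β) :=
    hχ.fun_mul (hΦ.continuousOn.comp (hc b) (fun w hw => (h2 w hw).1))
  have c3 : ContinuousOn (fun w => χ w * Φ (ev w b₀)) (Rc α β) :=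
    hχ.fun_mul (hΦ.continuousOn.comp (hc b₀) hb)
  have e : L (b - b₀) = II α β fun w => χ w * fderiv ℂ Φ (ev w b₀) (ev w (b - b₀)) := rfl
  rw [e, ← II_sub h c2 c3, ← II_sub h (c2.fun_sub c3) (c1' _)]
  refine (II_le_const (M := (|M| + 1) * (ε / A * ((|C| + 1) * ‖b - b₀‖))) h
    (fun w hw => ?_)).trans ?_
  · rw [← mul_sub, ← mul_sub, norm_mul]
    refine mul_le_mul (hM' w hw) ?_ (norm_nonneg _) (by positivity)
    rw [map_sub (ev w)]
    refine (h2 w hw).2.trans (mul_le_mul_of_nonneg_left ?_ (by positivity))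
    rw [← map_sub]
    exact hev w hw _
  · have hn := norm_nonneg (b - b₀)
    calc 2 * Real.pi * ((β - α) * ((|M| + 1) * (ε / A * ((|C| + 1) * ‖b - b₀‖))))
        ≤ 2 * Real.pi * ((β - α + 1) * ((|M| + 1) * (ε / A * ((|C| + 1) * ‖b - b₀‖)))) := by
          gcongr; linarith
      _ = A * (ε / A) * ‖b - b₀‖ := by rw [hA]; ring
      _ = ε * ‖b - b₀‖ := by field_simp

end nem

/-- bounded, continuous evaluations of the path and of the 1-jet on a Banach space -/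
structure Ev (α β : ℝ) (B : Type*) [NormedAddCommGroup B] [NormedSpace ℂ B] where
  x : ℝ → B →L[ℂ] ℂ
  k : ℝ → B →L[ℂ] ℂ
  v : ℝ × ℝ → B →L[ℂ] ℂ
  p : ℝ × ℝ → B →L[ℂ] ℂ
  q : ℝ × ℝ → B →L[ℂ] ℂ
  C : ℝ
  bx : ∀ s ∈ Icc α β, ‖x s‖ ≤ C
  bk : ∀ s ∈ Icc α β, ‖k s‖ ≤ C
  bv : ∀ w ∈ Rc α β, ‖v w‖ ≤ C
  bp : ∀ w ∈ Rc α β, ‖p w‖ ≤ C
  bq : ∀ w ∈ Rc α β, ‖q w‖ ≤ C
  cx : ∀ b, ContinuousOn (fun s => x s b) (Icc α β)
  ck : ∀ b, ContinuousOn (fun s => k s b) (Icc α β)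
  cv : ∀ b, ContinuousOn (fun w => v w b) (Rc α β)
  cp : ∀ b, ContinuousOn (fun w => p w b) (Rc α β)
  cq : ∀ b, ContinuousOn (fun w => q w b) (Rc α β)

namespace Ev

variable {B : Type*} [NormedAddCommGroup B] [NormedSpace ℂ B] (e : Ev α β B)

def X (b : B) : ℝ → ℂ := fun s => e.x s b
def K (b : B) : ℝ → ℂ := fun s => e.k s b
def V (b : B) : ℝ × ℝ → ℂ := fun w => e.v w b
def P (b : B) : ℝ × ℝ → ℂ := fun w => e.p w b
def Q (b : B) : ℝ × ℝ → ℂ := fun w => e.q w b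

/-- the action of `b` -/
def A (χ : ℝ → ℂ) (b : B) : ℂ := act α β χ (e.X b) (e.K b) (e.V b) (e.P b) (e.Q b)

/-- the boundary form of `b` at `s` on the variation `d` -/
def fl (s : ℝ) (b d : B) : ℂ := flux s (e.X b) (e.X d) (e.V b) (e.P b) (e.Q b) (e.V d)

/-- the cut-off form of `b` on the variation `d` -/
def st (χ' : ℝ → ℂ) (b d : B) : ℂ := strip α β χ' (e.X b) (e.X d) (e.V b) (e.P b) (e.Q b) (e.V d)

theorem A_diffAt (h : α ≤ β) {χ : ℝ → ℂ} (hχ : ContinuousOn χ (Icc α β)) {b₀ : B}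
    (ho : OkOn α β (e.V b₀) (e.P b₀) (e.Q b₀)) : DifferentiableAt ℂ (e.A χ) b₀ := by
  refine II_diffAt h (fun w => (e.x w.1).prod ((e.k w.1).prod ((e.v w).prod ((e.p w).prod (e.q w)))))
    (C := e.C) (fun w hw => ?_) (fun b => ?_) (c1 hχ) isOpen_PU PL_cd (fun w hw => ho w hw)
  · simp only [ContinuousLinearMap.opNorm_prod, Prod.norm_def, max_le_iff]
    exact ⟨e.bx _ hw.1, e.bk _ hw.1, e.bv w hw, e.bp w hw, e.bq w hw⟩
  · exact (c1 (e.cx b)).prodMk ((c1 (e.ck b)).prodMk ((e.cv b).prodMk ((e.cp b).prodMk (e.cq b))))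

/-- **first variation along a differentiable family of solutions** -/
theorem fam {P : Type*} [NormedAddCommGroup P] [NormedSpace ℂ P] (h : α ≤ β) {χ χ' : ℝ → ℂ}
    (C : Cut α β χ χ') {U : P → B} {z₀ : P} (hU : DifferentiableAt ℂ U z₀)
    (J : ∀ᶠ z in 𝓝 z₀, J1 α β (e.X (U z)) (e.K (U z)) (e.V (U z)) (e.P (U z)) (e.Q (U z)))
    {r m t : ℝ × ℝ → ℂ}
    (J₀ : J2 α β (e.X (U z₀)) (e.K (U z₀)) (e.V (U z₀)) (e.P (U z₀)) (e.Q (U z₀)) r m t)
    (ho : OkOn α β (e.V (U z₀)) (e.P (U z₀)) (e.Q (U z₀))) (d : P) :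
    fderiv ℂ (fun z => e.A χ (U z)) z₀ d =
      bulk α β χ (e.X (U z₀)) (e.K (U z₀)) (e.X (fderiv ℂ U z₀ d)) (e.V (U z₀)) (e.P (U z₀))
        (e.Q (U z₀)) r m t (e.V (fderiv ℂ U z₀ d)) - e.st χ' (U z₀) (fderiv ℂ U z₀ d) +
      (χ β * e.fl β (U z₀) (fderiv ℂ U z₀ d) - χ α * e.fl α (U z₀) (fderiv ℂ U z₀ d)) := by
  have hl : HasDerivAt (fun τ : ℂ => z₀ + τ • d) d 0 := by
    simpa using ((hasDerivAt_id (0 : ℂ)).smul_const d).const_add z₀
  have h0 : z₀ = z₀ + (0 : ℂ) • d := by simp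
  have h1 : HasDerivAt (fun τ : ℂ => U (z₀ + τ • d)) (fderiv ℂ U z₀ d) 0 :=
    hU.hasFDerivAt.comp_hasDerivAt_of_eq (0 : ℂ) hl h0
  have hA : DifferentiableAt ℂ (fun z => e.A χ (U z)) z₀ := (e.A_diffAt h C.c ho).comp z₀ hU
  have h2 : HasDerivAt (fun τ : ℂ => e.A χ (U (z₀ + τ • d)))
      (fderiv ℂ (fun z => e.A χ (U z)) z₀ d) 0 :=
    hA.hasFDerivAt.comp_hasDerivAt_of_eq (0 : ℂ) hl h0
  have hJ : ∀ᶠ τ in 𝓝 (0 : ℂ), J1 α β (e.X (U (z₀ + τ • d))) (e.K (U (z₀ + τ • d)))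
      (e.V (U (z₀ + τ • d))) (e.P (U (z₀ + τ • d))) (e.Q (U (z₀ + τ • d))) := by
    have : Tendsto (fun τ : ℂ => z₀ + τ • d) (𝓝 0) (𝓝 z₀) := by
      have := hl.continuousAt.tendsto
      rwa [← h0] at this
    exact this.eventually J
  have h3 := act_deriv (x := fun τ => e.X (U (z₀ + τ • d))) (k := fun τ => e.K (U (z₀ + τ • d)))
    (v := fun τ => e.V (U (z₀ + τ • d))) (p := fun τ => e.P (U (z₀ + τ • d)))
    (q := fun τ => e.Q (U (z₀ + τ • d))) (r := r) (m := m) (t := t) h C hJ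
    (by simpa only [← h0] using J₀) (by simpa only [← h0] using ho)
    (UD.of_ev e.x e.bx h1) (UD.of_ev e.k e.bk h1) (UD.of_ev e.v e.bv h1) (UD.of_ev e.p e.bp h1)
    (UD.of_ev e.q e.bq h1) (e.cx _) (e.ck _) (e.cv _) (e.cp _) (e.cq _)
  have h4 := h2.unique h3
  simp only [← h0] at h4
  exact h4

/-- the same for solutions of the equation on the support of `χ` -/
theorem fam_sol {P : Type*} [NormedAddCommGroup P] [NormedSpace ℂ P] (h : α ≤ β) {χ χ' : ℝ → ℂ}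
    (C : Cut α β χ χ') {U : P → B} {z₀ : P} (hU : DifferentiableAt ℂ U z₀)
    (J : ∀ᶠ z in 𝓝 z₀, J1 α β (e.X (U z)) (e.K (U z)) (e.V (U z)) (e.P (U z)) (e.Q (U z)))
    {r m t : ℝ × ℝ → ℂ}
    (J₀ : J2 α β (e.X (U z₀)) (e.K (U z₀)) (e.V (U z₀)) (e.P (U z₀)) (e.Q (U z₀)) r m t)
    (ho : OkOn α β (e.V (U z₀)) (e.P (U z₀)) (e.Q (U z₀)))
    (he : ∀ w ∈ Rc α β, χ w.1 = 0 ∨ Eqn (e.X (U z₀) w.1) (e.V (U z₀) w) (e.P (U z₀) w)
      (e.Q (U z₀) w) (r w) (m w) (t w) = 0) (d : P) :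
    fderiv ℂ (fun z => e.A χ (U z)) z₀ d =
      χ β * e.fl β (U z₀) (fderiv ℂ U z₀ d) - χ α * e.fl α (U z₀) (fderiv ℂ U z₀ d) -
        e.st χ' (U z₀) (fderiv ℂ U z₀ d) := by
  rw [e.fam h C hU J J₀ ho d, bulk_zero h he]
  ring

end Ev

end Crest.Agent.N250.Act

end
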