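import Crest.Agent.N250.Act.FV

/-!
# Row 250, B1 / S7 (helper97): the Noether current of the tilting rotations

`r² = 2 v`; `c, σ` are functions of `θ` with `c' = -σ`, `σ' = c` (`cos, sin` or `sin, -cos`).
-/

set_option autoImplicit false
open MeasureTheory Set Filter Topology Complex

noncomputable section

namespace Crest.Agent.N250.Act

variable {α β : ℝ}

/-- the radius -/
def Rf (v : ℂ) : ℂ := Complex.sqrt (2 * v)

theorem Rf_sq (v : ℂ) : Rf v ^ 2 = 2 * v := sqrt_sq'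

theorem Rf_ne {v : ℂ} (h : v ≠ 0) : Rf v ≠ 0 := fun h0 =>
  mul_ne_zero two_ne_zero h (by rw [← Rf_sq, h0]; simp)

/-- `x`-component of the current -/
def Mx (x v p q c σ : ℂ) : ℂ :=
  Ef x v / Wf v p q * ((Qf v p q - p ^ 2) * Rf v * c - x * p * (Rf v * c + q / Rf v * σ))

/-- `θ`-component of the current -/
def Mt (x v p q c σ : ℂ) : ℂ :=
  Ef x v / Wf v p q * (x * Rf v * σ + x * p ^ 2 * σ / Rf v - q / Rf v * (p + x) * c)

/-- the normal component of the Killing field -/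
def NK (x v p q c σ : ℂ) : ℂ := -(p * Rf v * c) - x * Rf v * c - q / Rf v * x * σ

section der

variable {x v p q c σ : ℝ → ℂ} {x' v' p' q' c' σ' : ℂ} {s : ℝ}

theorem Rf_hd (hv : HasDerivAt v v' s) (h0 : 2 * v s ∈ slitPlane) :
    HasDerivAt (fun s => Rf (v s)) (v' / Rf (v s)) s := by
  have h := (sqrt_hd h0).comp_of_eq s (hv.const_mul 2) rfl
  refine HasDerivAt.congr_deriv h ?_
  rw [Rf]; ring

theorem EW_hd (hx : HasDerivAt x x' s) (hv : HasDerivAt v v' s) (hp : HasDerivAt p p' s)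
    (hq : HasDerivAt q q' s) (h0 : Ok (v s) (p s) (q s)) :
    HasDerivAt (fun s => Ef (x s) (v s) / Wf (v s) (p s) (q s))
      (Ef (x s) (v s) / Wf (v s) (p s) (q s) * (-(x s * x') / 2 - v' / 2 -
        (2 * v' + 2 * p s * p' + q s * q' / v s - q s ^ 2 * v' / (2 * v s ^ 2)) /
          (2 * Qf (v s) (p s) (q s)))) s := by
  have hW := h0.W_ne
  have h := (Ef_hd hx hv).fun_div (Wf_hd hv hp hq h0) hW
  refine HasDerivAt.congr_deriv h ?_
  rw [← Wf_sq]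
  field_simp

def dMx (x v p q c σ x' v' p' q' : ℂ) : ℂ :=
  Ef x v / Wf v p q * ((-(x * x') / 2 - v' / 2 -
      (2 * v' + 2 * p * p' + q * q' / v - q ^ 2 * v' / (2 * v ^ 2)) / (2 * Qf v p q)) *
    ((Qf v p q - p ^ 2) * Rf v * c - x * p * (Rf v * c + q / Rf v * σ)) +
    ((2 * v' + q * q' / v - q ^ 2 * v' / (2 * v ^ 2)) * Rf v * c + (Qf v p q - p ^ 2) * (v' / Rf v) * c -
      (x' * p + x * p') * (Rf v * c + q / Rf v * σ) -
      x * p * (v' / Rf v * c + (q' / Rf v - q * v' / Rf v ^ 3) * σ)))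

def dMt (x v p q c σ v' p' q' : ℂ) : ℂ :=
  Ef x v / Wf v p q * ((- v' / 2 -
      (2 * v' + 2 * p * p' + q * q' / v - q ^ 2 * v' / (2 * v ^ 2)) / (2 * Qf v p q)) *
    (x * Rf v * σ + x * p ^ 2 * σ / Rf v - q / Rf v * (p + x) * c) +
    (x * (v' / Rf v) * σ + x * Rf v * c + x * (2 * p * p' * σ + p ^ 2 * c) / Rf v -
      x * p ^ 2 * σ * v' / Rf v ^ 3 - (q' / Rf v - q * v' / Rf v ^ 3) * (p + x) * c -
      q / Rf v * p' * c + q / Rf v * (p + x) * σ))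

theorem Mx_hd (hx : HasDerivAt x x' s) (hv : HasDerivAt v v' s) (hp : HasDerivAt p p' s)
    (hq : HasDerivAt q q' s) (h0 : Ok (v s) (p s) (q s)) (h1 : 2 * v s ∈ slitPlane) (c σ : ℂ) :
    HasDerivAt (fun s => Mx (x s) (v s) (p s) (q s) c σ)
      (dMx (x s) (v s) (p s) (q s) c σ x' v' p' q') s := by
  have hR := Rf_ne h0.1
  have hr := Rf_hd hv h1
  have h := (EW_hd hx hv hp hq h0).fun_mul
    (((((Qf_hd hv hp hq h0.1).fun_sub (hp.fun_pow 2)).fun_mul hr).mul_const c).fun_sub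
      ((hx.fun_mul hp).fun_mul ((hr.mul_const c).fun_add ((hq.fun_div hr hR).mul_const σ))))
  refine HasDerivAt.congr_deriv h ?_
  simp only [dMx]
  generalize Ef (x s) (v s) / Wf (v s) (p s) (q s) = T
  field_simp
  ring

theorem Mt_hd (x : ℂ) (hv : HasDerivAt v v' s) (hp : HasDerivAt p p' s)
    (hq : HasDerivAt q q' s) (h0 : Ok (v s) (p s) (q s)) (h1 : 2 * v s ∈ slitPlane)
    (hc : HasDerivAt c (-σ s) s) (hσ : HasDerivAt σ (c s) s) :
    HasDerivAt (fun s => Mt x (v s) (p s) (q s) (c s) (σ s))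
      (dMt x (v s) (p s) (q s) (c s) (σ s) v' p' q') s := by
  have hR := Rf_ne h0.1
  have hr := Rf_hd hv h1
  have h := (EW_hd (hasDerivAt_const s x) hv hp hq h0).fun_mul
    ((((hr.const_mul x).fun_mul hσ).fun_add
      (((((hp.fun_pow 2).const_mul x).fun_mul hσ)).fun_div hr hR)).fun_sub
      (((hq.fun_div hr hR).fun_mul (hp.add_const x)).fun_mul hc))
  refine HasDerivAt.congr_deriv h ?_
  simp only [dMt]
  generalize Ef x (v s) / Wf (v s) (p s) (q s) = T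
  field_simp
  ring

end der

/-- the Noether identity -/
theorem noether {x v p q : ℂ} (r m t c σ : ℂ) (h0 : Ok v p q) :
    dMx x v p q c σ 1 p r m + dMt x v p q c σ q m t =
      Ef x v / Wf v p q * Eqn x v p q r m t * NK x v p q c σ := by
  have hR := Rf_ne h0.1
  have hv : v = Rf v ^ 2 / 2 := by rw [Rf_sq]; ring
  have hQ := h0.Q_ne
  have hQ' : Qf v p q = (Rf v ^ 4 + p ^ 2 * Rf v ^ 2 + q ^ 2) / Rf v ^ 2 := by
    rw [Qf, ← Rf_sq v]; field_simp
  simp only [dMx, dMt, Eqn, NK, Qx, Qt]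
  generalize Ef x v / Wf v p q = T
  rw [hQ'] at hQ ⊢
  generalize Rf v = R at *
  subst hv
  have hN : R ^ 4 + p ^ 2 * R ^ 2 + q ^ 2 ≠ 0 := fun h => hQ (by rw [h, zero_div])
  obtain ⟨N, hNe⟩ : ∃ N, N = R ^ 4 + p ^ 2 * R ^ 2 + q ^ 2 := ⟨_, rfl⟩
  rw [← hNe] at hN ⊢
  field_simp
  subst hNe
  ring

theorem dMx_smul (x v p q c σ k x' v' p' q' : ℂ) :
    dMx x v p q c σ (k * x') (k * v') (k * p') (k * q') = k * dMx x v p q c σ x' v' p' q' := by
  simp only [dMx]; ring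

section cont

variable {X : Type*} [TopologicalSpace X] {K : Set X} {x v p q c σ x' v' p' q' : X → ℂ}

theorem Rf_c (hv : ContinuousOn v K) (h1 : ∀ z ∈ K, 2 * v z ∈ slitPlane) :
    ContinuousOn (fun z => Rf (v z)) K :=
  continuousOn_sqrt.comp (hv.const_mul 2) h1

theorem M_c (hx : ContinuousOn x K) (hv : ContinuousOn v K) (hp : ContinuousOn p K)
    (hq : ContinuousOn q K) (hc : ContinuousOn c K) (hσ : ContinuousOn σ K)
    (hx' : ContinuousOn x' K) (hv' : ContinuousOn v' K)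
    (hp' : ContinuousOn p' K) (hq' : ContinuousOn q' K) (h0 : ∀ z ∈ K, Ok (v z) (p z) (q z))
    (h1 : ∀ z ∈ K, 2 * v z ∈ slitPlane) :
    ContinuousOn (fun z => Mx (x z) (v z) (p z) (q z) (c z) (σ z)) K ∧
    ContinuousOn (fun z => Mt (x z) (v z) (p z) (q z) (c z) (σ z)) K ∧
    ContinuousOn (fun z => dMx (x z) (v z) (p z) (q z) (c z) (σ z) (x' z) (v' z) (p' z) (q' z)) K ∧
    ContinuousOn (fun z => dMt (x z) (v z) (p z) (q z) (c z) (σ z) (v' z) (p' z) (q' z)) K := by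
  have a1 := Wf_c hv hp hq h0
  have a2 := Ef_c hx hv
  have a3 := Qf_c hv hp hq h0
  have a4 := Rf_c hv h1
  have : ∀ z ∈ K, v z ≠ 0 := fun z hz => (h0 z hz).1
  have : ∀ z ∈ K, 2 * v z ^ 2 ≠ 0 := fun z hz => mul_ne_zero two_ne_zero (pow_ne_zero _ (h0 z hz).1)
  have : ∀ z ∈ K, Wf (v z) (p z) (q z) ≠ 0 := fun z hz => (h0 z hz).W_ne
  have : ∀ z ∈ K, 2 * Qf (v z) (p z) (q z) ≠ 0 := fun z hz =>
    mul_ne_zero two_ne_zero (h0 z hz).Q_ne
  have : ∀ z ∈ K, Rf (v z) ≠ 0 := fun z hz => Rf_ne (h0 z hz).1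
  have : ∀ z ∈ K, Rf (v z) ^ 3 ≠ 0 := fun z hz => pow_ne_zero _ (Rf_ne (h0 z hz).1)
  refine ⟨?_, ?_, ?_, ?_⟩
  · unfold Mx; fun_prop (disch := assumption)
  · unfold Mt; fun_prop (disch := assumption)
  · unfold dMx; fun_prop (disch := assumption)
  · unfold dMt; fun_prop (disch := assumption)

end cont

/-- the torque through the circle at `s` -/
def torque (s : ℝ) (x : ℝ → ℂ) (v p q : ℝ × ℝ → ℂ) (c σ : ℝ → ℂ) : ℂ :=
  OI s fun z => Mx (x z.1) (v z) (p z) (q z) (c z.2) (σ z.2)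

/-- admissible angular functions -/
structure Ang (c σ : ℝ → ℂ) : Prop where
  dc : ∀ θ, HasDerivAt c (-σ θ) θ
  dσ : ∀ θ, HasDerivAt σ (c θ) θ
  pc : c (2 * Real.pi) = c 0
  pσ : σ (2 * Real.pi) = σ 0

theorem ang_cos : Ang (fun θ => (Real.cos θ : ℂ)) (fun θ => (Real.sin θ : ℂ)) :=
  ⟨fun θ => by simpa using (Real.hasDerivAt_cos θ).ofReal_comp,
    fun θ => (Real.hasDerivAt_sin θ).ofReal_comp, by simp, by simp⟩

theorem ang_sin : Ang (fun θ => (Real.sin θ : ℂ)) (fun θ => -(Real.cos θ : ℂ)) :=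
  ⟨fun θ => by simpa using (Real.hasDerivAt_sin θ).ofReal_comp,
    fun θ => by simpa using (Real.hasDerivAt_cos θ).ofReal_comp.fun_neg, by simp, by simp⟩

theorem J2.mono {x k : ℝ → ℂ} {v p q r m t : ℝ × ℝ → ℂ} (J : J2 α β x k v p q r m t) {a b : ℝ}
    (ha : α ≤ a) (hb : b ≤ β) : J2 a b x k v p q r m t := by
  have h1 : Icc a b ⊆ Icc α β := Icc_subset_Icc ha hb
  have h2 : Ioo a b ⊆ Ioo α β := Ioo_subset_Ioo ha hb
  have h3 : Rc a b ⊆ Rc α β := prod_mono h1 Subset.rfl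
  exact ⟨⟨J.cx.mono h1, J.ck.mono h1, fun s hs => J.dx s (h2 hs), J.cv.mono h3, J.cp.mono h3,
    J.cq.mono h3, fun s hs => J.dsv s (h2 hs), fun s hs => J.dtv s (h1 hs),
    fun s hs => J.pv s (h1 hs), fun s hs => J.pp s (h1 hs), fun s hs => J.pq s (h1 hs)⟩,
    J.cr.mono h3, J.cm.mono h3, J.ct.mono h3, fun s hs => J.dsp s (h2 hs),
    fun s hs => J.dsq s (h2 hs), fun s hs => J.dtp s (h1 hs), fun s hs => J.dtq s (h1 hs)⟩

/-- balance law for the torque -/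
theorem torque_sub {x k c σ : ℝ → ℂ} {v p q r m t : ℝ × ℝ → ℂ} (h : α ≤ β)
    (J : J2 α β x k v p q r m t) (ho : OkOn α β v p q) (h1 : ∀ z ∈ Rc α β, 2 * v z ∈ slitPlane)
    (A : Ang c σ) :
    torque β x v p q c σ - torque α x v p q c σ =
      II α β fun z => k z.1 * (Ef (x z.1) (v z) / Wf (v z) (p z) (q z) *
        Eqn (x z.1) (v z) (p z) (q z) (r z) (m z) (t z) *
        NK (x z.1) (v z) (p z) (q z) (c z.2) (σ z.2)) := by
  have hx := c1 J.cx
  have hk := c1 J.ck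
  have hc : ContinuousOn (fun z : ℝ × ℝ => c z.2) (Rc α β) :=
    ((continuous_iff_continuousAt.2 fun θ => (A.dc θ).continuousAt).comp continuous_snd).continuousOn
  have hσ : ContinuousOn (fun z : ℝ × ℝ => σ z.2) (Rc α β) :=
    ((continuous_iff_continuousAt.2 fun θ => (A.dσ θ).continuousAt).comp continuous_snd).continuousOn
  obtain ⟨a1, a2, a3, -⟩ := M_c hx J.cv J.cp J.cq hc hσ (x' := fun _ => 1) continuousOn_const J.cp
    J.cr J.cm ho h1
  obtain ⟨-, -, -, a4⟩ := M_c hx J.cv J.cp J.cq hc hσ (x' := fun _ => 1) continuousOn_const J.cq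
    J.cm J.ct ho h1
  rw [II_div h (e := fun _ => 0) continuousOn_const a1 (hk.fun_mul a3) ?_ (hk.fun_mul a2)
    (hk.fun_mul a4) ?_ ?_ ?_, II_zero, zero_add]
  · rfl
  · intro s hs θ hθ
    have hz : (s, θ) ∈ Rc α β := ⟨Ioo_subset_Icc_self hs, hθ⟩
    refine HasDerivAt.congr_deriv (Mx_hd (J.dx s hs) (J.dsv s hs θ hθ) (J.dsp s hs θ hθ)
      (J.dsq s hs θ hθ) (ho _ hz) (h1 _ hz) (c θ) (σ θ)) ?_
    have e := dMx_smul (x s) (v (s, θ)) (p (s, θ)) (q (s, θ)) (c θ) (σ θ) (k s) 1 (p (s, θ))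
      (r (s, θ)) (m (s, θ))
    rwa [mul_one] at e
  · intro s hs θ hθ
    have hz : (s, θ) ∈ Rc α β := ⟨hs, Ioo_subset_Icc_self hθ⟩
    exact (Mt_hd (x s) (J.dtv s hs θ hθ) (J.dtp s hs θ hθ) (J.dtq s hs θ hθ) (ho _ hz) (h1 _ hz)
      (A.dc θ) (A.dσ θ)).const_mul (k s)
  · intro s hs
    simp only [J.pv s hs, J.pp s hs, J.pq s hs, A.pc, A.pσ]
  · intro z hz
    rw [← noether _ _ _ _ _ (ho z hz)]; ring

/-- **the torque is constant along solutions** -/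
theorem torque_const {x k c σ : ℝ → ℂ} {v p q r m t : ℝ × ℝ → ℂ}
    (J : J2 α β x k v p q r m t) (ho : OkOn α β v p q) (h1 : ∀ z ∈ Rc α β, 2 * v z ∈ slitPlane)
    (A : Ang c σ) {s : ℝ} (hs : s ∈ Icc α β)
    (he : ∀ z ∈ Rc s β, Eqn (x z.1) (v z) (p z) (q z) (r z) (m z) (t z) = 0) :
    torque s x v p q c σ = torque β x v p q c σ := by
  have h3 : Rc s β ⊆ Rc α β := prod_mono (Icc_subset_Icc hs.1 le_rfl) Subset.rfl
  have := torque_sub hs.2 (J.mono hs.1 le_rfl) (fun z hz => ho z (h3 hz)) (fun z hz => h1 z (h3 hz)) A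
  rw [II_congr hs.2 (g := fun _ => 0) (fun z hz => by simp [he z hz]), II_zero, sub_eq_zero] at this
  exact this.symm

end Crest.Agent.N250.Act

end
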