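import Crest.Agent.N250.Act.Fam
import Crest.Agent.N250.Act.Rot
import Crest.Agent.N250.B1.Stm

/-!
# Row 250, B1 / S7 (helper97): the first variation for the jets of `B1/Defs` (`FVS`, and the version
with a smooth cut-off), and the conservation of the torque
-/

set_option autoImplicit false
open MeasureTheory Set Filter Topology Complex

noncomputable section

namespace Crest.Agent.N250.Act

open B1

section wi

variable {ω : WiW CI}

theorem syn_der {c : CI} {u u' : Wi ω} (h : ∀ m, Der (Wi.co u m) (c * Wi.co u' m)) (θ : ℝ) :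
    Der (Wi.syn u θ) (c * Wi.syn u' θ) := by
  have h1 := (Wi.hasSum_syn u θ).mapL (B1.cst.comp (ContinuousMap.evalCLM ℂ i0))
  have h2 := ((Wi.hasSum_syn u' θ).mul_left c).mapL pr
  refine (Wi.hasSum_syn u θ).unique ?_
  refine (h1.add h2).congr_fun ?_
  intro m
  have := (h m).smul (Wi.ex m θ)
  rw [Der] at this
  rw [mul_smul_comm]
  exact this

theorem syn_dt {u u' : Wi ω} (h : ∀ m : ℤ, Wi.co u' m = (m * I : ℂ) • Wi.co u m) (θ : ℝ) :
    HasDerivAt (Wi.syn u) (Wi.syn u' θ) θ := by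
  refine hasDerivAt_tsum (g := fun m θ => Wi.ex m θ • Wi.co u m)
    (g' := fun m θ => Wi.ex m θ • Wi.co u' m) (y₀ := θ) (Wi.summable_co u') (fun m θ => ?_)
    (fun m θ => by simp [norm_smul]) (Wi.hasSum_syn u θ).summable θ
  rw [h m, smul_smul, mul_comm]
  exact (((ContinuousLinearMap.toSpanSingleton ℂ (Wi.co u m)).restrictScalars
    ℝ).hasFDerivAt.comp_hasDerivAt θ (Wi.hasDerivAt_ex m θ))

/-- point values on `ℝ × ℝ` -/
def pv (u : Wi ω) (z : ℝ × ℝ) : ℂ := ex (Wi.syn u z.2) z.1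

theorem pv_cont (u : Wi ω) : Continuous (pv u) :=
  continuous_eval.comp (((Wi.continuous_syn u).comp continuous_snd).prodMk
    ((continuous_projIcc (h := zero_le_one)).comp continuous_fst))

theorem pv_ds {c : CI} {u u' : Wi ω} (h : ∀ m, Der (Wi.co u m) (c * Wi.co u' m)) :
    Ds 0 1 (pv u) fun z => ex c z.1 * pv u' z := fun _ hs θ _ => (syn_der h θ).at hs

theorem pv_dt {u u' : Wi ω} (h : ∀ m : ℤ, Wi.co u' m = (m * I : ℂ) • Wi.co u m) (s θ : ℝ) :
    HasDerivAt (fun θ => pv u (s, θ)) (pv u' (s, θ)) θ :=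
  ((ContinuousMap.evalCLM ℝ (projIcc 0 1 zero_le_one s) : CI →L[ℝ] ℂ).hasFDerivAt.comp_hasDerivAt θ
    (syn_dt h θ) :)

theorem pv_per (u : Wi ω) : Per 0 1 (pv u) := fun s _ => by
  have := Wi.syn_periodic u 0
  rw [zero_add] at this
  simp only [pv, this]

/-- evaluation of `CI` -/
def exL (s : ℝ) : CI →L[ℂ] ℂ := ContinuousMap.evalCLM ℂ (projIcc 0 1 zero_le_one s)

theorem exL_apply (s : ℝ) (f : CI) : exL s f = ex f s := rfl

theorem exL_le (s : ℝ) : ‖exL s‖ ≤ 1 :=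
  ContinuousLinearMap.opNorm_le_bound _ zero_le_one fun f => by rw [one_mul]; exact ex_le f s

variable (ω) in
/-- evaluation of `Wi` -/
def pvL (z : ℝ × ℝ) : Wi ω →L[ℂ] ℂ := (exL z.1).comp (Wi.ev ω z.2).toContinuousLinearMap

theorem pvL_apply (z : ℝ × ℝ) (u : Wi ω) : pvL ω z u = pv u z := rfl

theorem pv_le (u : Wi ω) (z : ℝ × ℝ) : ‖pv u z‖ ≤ ‖u‖ := (ex_le _ _).trans (Wi.norm_syn_le u _)

end wi

theorem cub_hd (s : ℝ) : HasDerivAt (fun s => cub s ^ 3) (6 * cub s ^ 2) s := by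
  rcases lt_trichotomy (2 * s - 1) 0 with h | h | h
  · have : (fun s => cub s ^ 3) =ᶠ[𝓝 s] fun _ => 0 := by
      filter_upwards [Iio_mem_nhds (show s < 1 / 2 by linarith)] with u hu
      rw [cub, max_eq_right (by linarith [mem_Iio.1 hu])]; norm_num
    rw [cub, max_eq_right h.le]
    simpa using (hasDerivAt_const s (0 : ℝ)).congr_of_eventuallyEq this
  · have h0 : cub s = 0 := by rw [cub, h, max_self]
    rw [h0, hasDerivAt_iff_isLittleO, Asymptotics.isLittleO_iff]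
    intro ε hε
    filter_upwards [Metric.ball_mem_nhds s (lt_min one_pos (div_pos hε (by norm_num : (0:ℝ) < 8)))]
      with u hu
    rw [Metric.mem_ball, Real.dist_eq, lt_min_iff] at hu
    have h1 : |cub u| ≤ 2 * |u - s| := by
      rw [abs_of_nonneg (le_max_right _ _)]
      exact max_le (by linarith [le_abs_self (u - s)]) (by positivity)
    have h2 : |cub u| ^ 3 ≤ (2 * |u - s|) ^ 3 := pow_le_pow_left₀ (abs_nonneg _) h1 3
    have h3 := abs_nonneg (u - s)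
    have h4 : |u - s| * |u - s| ≤ ε / 8 := by nlinarith [hu.1, hu.2]
    simp only [h0, Real.norm_eq_abs]
    norm_num
    nlinarith
  · have : (fun s => cub s ^ 3) =ᶠ[𝓝 s] fun u => (2 * u - 1) ^ 3 := by
      filter_upwards [Ioi_mem_nhds (show 1 / 2 < s by linarith)] with u hu
      rw [cub, max_eq_left (by linarith [mem_Ioi.1 hu])]
    rw [cub, max_eq_left h.le]
    refine HasDerivAt.congr_of_eventuallyEq ?_ this
    exact ((((hasDerivAt_id s).const_mul 2).sub_const 1).fun_pow 3).congr_deriv (by simp; ring)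

theorem gam_der (R : ℝ) (X : ℂ) : Der (gam R X) (dgam R X) := by
  refine der_of_fun (g := fun s : ℝ => R + 2 * (s : ℂ) + (X - R - 2) * ((cub s ^ 3 : ℝ) : ℂ))
    (fun s => by simp [gam]) (fun s _ => ?_)
  have h1 := (hasDerivAt_id (s : ℝ)).ofReal_comp
  have h2 := (cub_hd s).ofReal_comp
  refine HasDerivAt.congr_deriv (((h1.const_mul 2).const_add (R : ℂ)).fun_add
    (h2.const_mul (X - R - 2))) ?_
  simp [dgam]; ring

/-- `(2 s - 1)₊³` -/
def cb3 : CI := ⟨fun s => ((cub s : ℝ) : ℂ) ^ 3, by have := continuous_cub; fun_prop⟩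
/-- its derivative -/
def cb2 : CI := ⟨fun s => 6 * ((cub s : ℝ) : ℂ) ^ 2, by have := continuous_cub; fun_prop⟩

theorem gam_eq (R : ℝ) (X : ℂ) : gam R X = gam R 0 + X • cb3 := by
  ext s; simp [gam, cb3]; ring

theorem dgam_eq (R : ℝ) (X : ℂ) : dgam R X = dgam R 0 + X • cb2 := by
  ext s; simp [dgam, cb2]; ring

theorem gam_i0 (R : ℝ) (X : ℂ) : gam R X i0 = R := by simp [gam, i0, cub]
theorem gam_i1 (R : ℝ) (X : ℂ) : gam R X i1 = X := by norm_num [gam, i1, cub]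
theorem cb3_i0 : cb3 i0 = 0 := by simp [cb3, i0, cub]
theorem cb3_i1 : cb3 i1 = 1 := by norm_num [cb3, i1, cub]

theorem cb3_strip {s : ℝ} (hs : s ≤ 1 / 2) : ex cb3 s = 0 := by
  have h : ((projIcc (0 : ℝ) 1 zero_le_one s : Icc (0 : ℝ) 1) : ℝ) ≤ 1 / 2 := by
    rw [coe_projIcc]; exact max_le (by norm_num) ((min_le_right _ _).trans hs)
  simp only [ex, cb3, ContinuousMap.coe_mk, cub]
  rw [max_eq_right (by linarith)]; simp

variable {ℓ : Ell}

/-- the six point functions of `vj` on `ℝ × ℝ` -/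
def vf (R : ℝ) (X a : ℂ) (J : Jt ℓ) (i : Fin 6) (z : ℝ × ℝ) : ℂ :=
  vj R X a J (projIcc 0 1 zero_le_one z.1) z.2 i

theorem vf0 (R : ℝ) (X a : ℂ) (J : Jt ℓ) :
    vf R X a J 0 = fun z => et a (ex (gam R X) z.1) + pv (J 0) z := rfl
theorem vf1 (R : ℝ) (X a : ℂ) (J : Jt ℓ) :
    vf R X a J 1 = fun z => a * ex (gam R X) z.1 + pv (J 1) z := rfl
theorem vf2 (R : ℝ) (X a : ℂ) (J : Jt ℓ) : vf R X a J 2 = fun z => a + pv (J 2) z := rfl
theorem vf3 (R : ℝ) (X a : ℂ) (J : Jt ℓ) : vf R X a J 3 = pv (J 3) := rfl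
theorem vf4 (R : ℝ) (X a : ℂ) (J : Jt ℓ) : vf R X a J 4 = pv (J 4) := rfl
theorem vf5 (R : ℝ) (X a : ℂ) (J : Jt ℓ) : vf R X a J 5 = pv (J 5) := rfl

theorem vf_cont (R : ℝ) (X a : ℂ) (J : Jt ℓ) (i : Fin 6) : Continuous (vf R X a J i) := by
  have h := (ex_cont (gam R X)).comp (continuous_fst : Continuous fun z : ℝ × ℝ => z.1)
  have hp := fun j => pv_cont (J j)
  fin_cases i
  · refine Continuous.add (f := fun z : ℝ × ℝ => et a (ex (gam R X) z.1)) ?_ (hp 0)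
    unfold et
    exact continuous_const.add ((continuous_const.mul ((h.pow 2).sub continuous_const)).div_const 2)
  · exact (continuous_const.mul h).add (hp 1)
  · exact continuous_const.add (hp 2)
  · exact hp 3
  · exact hp 4
  · exact hp 5

/-- a jet of `B1` is a second order jet along `γ_X` -/
theorem j2_of {R : ℝ} {X : ℂ} (a : ℂ) {J : Jt ℓ} (h : IsJet (dgam R X) J) :
    J2 0 1 (ex (gam R X)) (ex (dgam R X)) (vf R X a J 0) (vf R X a J 1) (vf R X a J 3)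
      (vf R X a J 2) (vf R X a J 4) (vf R X a J 5) := by
  have hg := fun s (hs : s ∈ Ioo (0 : ℝ) 1) => (gam_der R X).at hs
  have d3 : ∀ m, Der (Wi.co (J 3) m) (dgam R X * Wi.co (J 4) m) := fun m => by
    rw [h.t0, h.t1, mul_smul_comm]; exact (h.d0 m).smul _
  have t3 : ∀ m : ℤ, Wi.co (J 5) m = (m * I : ℂ) • Wi.co (J 3) m := fun m => by
    rw [h.t2, h.t0, smul_smul]
    congr 1
    linear_combination (-(m : ℂ) ^ 2) * I_sq
  refine ⟨⟨(ex_cont _).continuousOn, (ex_cont _).continuousOn, hg, (vf_cont ..).continuousOn,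
    (vf_cont ..).continuousOn, (vf_cont ..).continuousOn, fun s hs θ hθ => ?_, fun s _ θ _ => ?_,
    fun s hs => ?_, fun s hs => ?_, pv_per _⟩, (vf_cont ..).continuousOn, (vf_cont ..).continuousOn,
    (vf_cont ..).continuousOn, fun s hs θ hθ => ?_, pv_ds d3, fun s _ θ _ => ?_,
    fun s _ θ _ => pv_dt t3 s θ⟩
  · have h1 := (((((hg s hs).fun_pow 2).sub_const 2).const_mul a).div_const 2).const_add 1
    refine HasDerivAt.congr_deriv (h1.fun_add (pv_ds h.d0 s hs θ hθ)) ?_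
    simp only [vf1]; push_cast; ring
  · exact (pv_dt h.t0 s θ).const_add (et a (ex (gam R X) s))
  · simp only [vf0, pv_per (J 0) s hs]
  · simp only [vf1, pv_per (J 1) s hs]
  · refine HasDerivAt.congr_deriv (((hg s hs).const_mul a).fun_add (pv_ds h.d1 s hs θ hθ)) ?_
    simp only [vf2]; ring
  · exact (pv_dt h.t1 s θ).const_add (a * ex (gam R X) s)

theorem okOn_of {R : ℝ} {X a : ℂ} {J : Jt ℓ} (h : RegJ R X a J) :
    OkOn 0 1 (vf R X a J 0) (vf R X a J 1) (vf R X a J 3) := fun _ _ => h _ _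

theorem eqn_of {R : ℝ} {z : Par ℓ} {J : Jt ℓ} (h : Sol R z J) (w : ℝ × ℝ) :
    Eqn (ex (gam R z.1) w.1) (vf R z.1 z.2.1 J 0 w) (vf R z.1 z.2.1 J 1 w) (vf R z.1 z.2.1 J 3 w)
      (vf R z.1 z.2.1 J 2 w) (vf R z.1 z.2.1 J 4 w) (vf R z.1 z.2.1 J 5 w) = 0 := h.eq _ _

theorem Lag_eq (x v p q : ℂ) : B1.Lag x v p q = Lag x v p q := by
  simp only [B1.Lag, Lag, Wf, Ef, Complex.sqrt, one_div]; rfl

theorem Mom_eq (x v p q : ℂ) : B1.Mom x v p q = Lp x v p q := by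
  have : (Po.QQ v p q) ^ (-1 / 2 : ℂ) = (Wf v p q)⁻¹ := by
    rw [Wf, Complex.sqrt, ← cpow_neg]; congr 1; ring
  rw [B1.Mom, this, Lp, Ef]; ring

/-- the action of an end with a cut-off `χ (s)` -/
def actC (χ : ℝ → ℂ) (R : ℝ) (X a : ℂ) (J : Jt ℓ) : ℂ :=
  act 0 1 χ (ex (gam R X)) (ex (dgam R X)) (vf R X a J 0) (vf R X a J 1) (vf R X a J 3)

theorem actC_one (R : ℝ) (X a : ℂ) (J : Jt ℓ) : actC (fun _ => 1) R X a J = B1.act R X a J := by
  simp only [actC, act, II, B1.act, Lag_eq, one_mul]; rfl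

/-- the ambient space `(γ, γ', η ∘ γ, a γ, J)` -/
abbrev BB (ℓ : Ell) : Type := (CI × CI) × (CI × CI) × Jt ℓ

/-- components of a jet -/
def prJ (ℓ : Ell) (i : Fin 6) : Jt ℓ →L[ℂ] Wi (om ℓ) :=
  ContinuousLinearMap.proj (R := ℂ) (φ := fun _ : Fin 6 => Wi (om ℓ)) i

open ContinuousLinearMap in
/-- its evaluations -/
def evB (ℓ : Ell) : Ev 0 1 (BB ℓ) where
  x s := (exL s).comp ((fst ℂ _ _).comp (fst ℂ _ _))
  k s := (exL s).comp ((snd ℂ _ _).comp (fst ℂ _ _))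
  v w := (exL w.1).comp ((fst ℂ _ _).comp ((fst ℂ _ _).comp (snd ℂ _ _))) +
    (pvL _ w).comp ((prJ ℓ 0).comp ((snd ℂ _ _).comp (snd ℂ _ _)))
  p w := (exL w.1).comp ((snd ℂ _ _).comp ((fst ℂ _ _).comp (snd ℂ _ _))) +
    (pvL _ w).comp ((prJ ℓ 1).comp ((snd ℂ _ _).comp (snd ℂ _ _)))
  q w := (pvL _ w).comp ((prJ ℓ 3).comp ((snd ℂ _ _).comp (snd ℂ _ _)))
  C := 2
  bx s _ := opNorm_le_bound _ zero_le_two fun b => (ex_le b.1.1 s).trans
    (by linarith [norm_fst_le b.1, norm_fst_le b, norm_nonneg b])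
  bk s _ := opNorm_le_bound _ zero_le_two fun b => (ex_le b.1.2 s).trans
    (by linarith [norm_snd_le b.1, norm_fst_le b, norm_nonneg b])
  bv w _ := opNorm_le_bound _ zero_le_two fun b => (norm_add_le (ex b.2.1.1 w.1) (pv (b.2.2 0) w)).trans
    (by linarith [ex_le b.2.1.1 w.1, pv_le (b.2.2 0) w, norm_fst_le b.2.1, norm_fst_le b.2,
      norm_snd_le b.2, norm_snd_le b, norm_le_pi_norm b.2.2 0])
  bp w _ := opNorm_le_bound _ zero_le_two fun b => (norm_add_le (ex b.2.1.2 w.1) (pv (b.2.2 1) w)).trans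
    (by linarith [ex_le b.2.1.2 w.1, pv_le (b.2.2 1) w, norm_snd_le b.2.1, norm_fst_le b.2,
      norm_snd_le b.2, norm_snd_le b, norm_le_pi_norm b.2.2 1])
  bq w _ := opNorm_le_bound _ zero_le_two fun b => (pv_le (b.2.2 3) w).trans
    (by linarith [norm_snd_le b.2, norm_snd_le b, norm_le_pi_norm b.2.2 3, norm_nonneg b])
  cx b := (ex_cont b.1.1).continuousOn
  ck b := (ex_cont b.1.2).continuousOn
  cv b := (((ex_cont b.2.1.1).comp continuous_fst).add (pv_cont (b.2.2 0))).continuousOn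
  cp b := (((ex_cont b.2.1.2).comp continuous_fst).add (pv_cont (b.2.2 1))).continuousOn
  cq b := (pv_cont (b.2.2 3)).continuousOn

/-- the embedding of `(X, a, J)` -/
def emb (R : ℝ) (y : ℂ × ℂ × Jt ℓ) : BB ℓ :=
  ((gam R y.1, dgam R y.1),
    (1 + (y.2.1 / 2) • (gam R y.1 * gam R y.1 - (2 : ℂ) • 1), y.2.1 • gam R y.1), y.2.2)

/-- its derivative -/
def demb (R : ℝ) (y d : ℂ × ℂ × Jt ℓ) : BB ℓ :=
  ((d.1 • cb3, d.1 • cb2),
    ((d.2.1 / 2) • (gam R y.1 * gam R y.1 - (2 : ℂ) • 1) + (y.2.1 * d.1) • (gam R y.1 * cb3),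
      d.2.1 • gam R y.1 + (y.2.1 * d.1) • cb3), d.2.2)

theorem emb_hd (R : ℝ) {y : ℂ → ℂ × ℂ × Jt ℓ} {d : ℂ × ℂ × Jt ℓ} {t : ℂ} (h : HasDerivAt y d t) :
    HasDerivAt (fun u => emb R (y u)) (demb R (y t) d) t := by
  have hX : HasDerivAt (fun u => (y u).1) d.1 t := h.fst
  have ha : HasDerivAt (fun u => (y u).2.1) d.2.1 t := h.snd.fst
  have hJ : HasDerivAt (fun u => (y u).2.2) d.2.2 t := h.snd.snd
  have hg : HasDerivAt (fun u => gam R (y u).1) (d.1 • cb3) t := by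
    simp only [gam_eq R (y _).1]
    exact (hX.smul_const cb3).const_add _
  have hk : HasDerivAt (fun u => dgam R (y u).1) (d.1 • cb2) t := by
    simp only [dgam_eq R (y _).1]
    exact (hX.smul_const cb2).const_add _
  refine (hg.prodMk hk).prodMk ((HasDerivAt.prodMk ?_ ?_).prodMk hJ)
  · refine HasDerivAt.congr_deriv ((((ha.div_const 2).fun_smul
      ((hg.fun_mul hg).sub_const ((2 : ℂ) • 1)))).const_add 1) ?_
    ext s; simp; ring
  · refine HasDerivAt.congr_deriv (ha.fun_smul hg) ?_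
    ext s; simp; ring

theorem emb_diff (R : ℝ) : Differentiable ℂ (emb (ℓ := ℓ) R) := by
  have hg : Differentiable ℂ fun y : ℂ × ℂ × Jt ℓ => gam R y.1 := by
    simp only [fun y : ℂ × ℂ × Jt ℓ => gam_eq R y.1]; fun_prop
  have hk : Differentiable ℂ fun y : ℂ × ℂ × Jt ℓ => dgam R y.1 := by
    simp only [fun y : ℂ × ℂ × Jt ℓ => dgam_eq R y.1]; fun_prop
  unfold emb
  fun_prop

theorem emb_V (R : ℝ) (y : ℂ × ℂ × Jt ℓ) : (evB ℓ).V (emb R y) = vf R y.1 y.2.1 y.2.2 0 := by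
  funext w
  change ex (1 + (y.2.1 / 2) • (gam R y.1 * gam R y.1 - (2 : ℂ) • 1)) w.1 + pv (y.2.2 0) w = _
  simp only [vf0, et, ex, ContinuousMap.add_apply, ContinuousMap.smul_apply,
    ContinuousMap.sub_apply, ContinuousMap.mul_apply, ContinuousMap.one_apply, smul_eq_mul]
  ring

theorem emb_A (χ : ℝ → ℂ) (R : ℝ) (y : ℂ × ℂ × Jt ℓ) :
    (evB ℓ).A χ (emb R y) = actC χ R y.1 y.2.1 y.2.2 := by
  rw [Ev.A, emb_V]; rfl

/-- **the action is holomorphic in `(X, a, J)`** at regular jets -/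
theorem actC_diffAt {χ : ℝ → ℂ} (hχ : ContinuousOn χ (Icc 0 1)) (R : ℝ) {y : ℂ × ℂ × Jt ℓ}
    (h : RegJ R y.1 y.2.1 y.2.2) : DifferentiableAt ℂ (fun y : ℂ × ℂ × Jt ℓ =>
      actC χ R y.1 y.2.1 y.2.2) y := by
  simp only [← emb_A]
  refine ((evB ℓ).A_diffAt zero_le_one hχ ?_).comp y (emb_diff R y)
  rw [emb_V]
  exact okOn_of h

/-- the total variation of `v (s, θ)` at fixed `(s, θ)` -/
def dv (R : ℝ) (X a X' a' : ℂ) (J' : Jt ℓ) (w : ℝ × ℝ) : ℂ :=
  a' * (ex (gam R X) w.1 ^ 2 - 2) / 2 + a * ex (gam R X) w.1 * (X' * ex cb3 w.1) + pv (J' 0) w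

/-- **first variation with a cut-off** -/
theorem actC_deriv {χ χ' : ℝ → ℂ} (C : Cut 0 1 χ χ') (R : ℝ) {z : ℂ → Par ℓ} {J : ℂ → Jt ℓ}
    {z' : Par ℓ} {J' : Jt ℓ} {t : ℂ} (hz : HasDerivAt z z' t) (hJ : HasDerivAt J J' t)
    (hj : ∀ᶠ u in 𝓝 t, IsJet (dgam R (z u).1) (J u)) (hs : Sol R (z t) (J t))
    (hr : RegJ R (z t).1 (z t).2.1 (J t)) :
    HasDerivAt (fun u => actC χ R (z u).1 (z u).2.1 (J u))
      (χ 1 * flux 1 (ex (gam R (z t).1)) (fun s => z'.1 * ex cb3 s) (vf R (z t).1 (z t).2.1 (J t) 0)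
          (vf R (z t).1 (z t).2.1 (J t) 1) (vf R (z t).1 (z t).2.1 (J t) 3)
          (dv R (z t).1 (z t).2.1 z'.1 z'.2.1 J') -
        χ 0 * flux 0 (ex (gam R (z t).1)) (fun s => z'.1 * ex cb3 s) (vf R (z t).1 (z t).2.1 (J t) 0)
          (vf R (z t).1 (z t).2.1 (J t) 1) (vf R (z t).1 (z t).2.1 (J t) 3)
          (dv R (z t).1 (z t).2.1 z'.1 z'.2.1 J') -
        strip 0 1 χ' (ex (gam R (z t).1)) (fun s => z'.1 * ex cb3 s) (vf R (z t).1 (z t).2.1 (J t) 0)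
          (vf R (z t).1 (z t).2.1 (J t) 1) (vf R (z t).1 (z t).2.1 (J t) 3)
          (dv R (z t).1 (z t).2.1 z'.1 z'.2.1 J')) t := by
  have hy : HasDerivAt (fun u => ((z u).1, (z u).2.1, J u)) (z'.1, z'.2.1, J') t :=
    hz.fst.prodMk (hz.snd.fst.prodMk hJ)
  have hU := emb_hd R hy
  have hA := (actC_diffAt C.c R (y := ((z t).1, (z t).2.1, J t)) hr).hasFDerivAt.comp_hasDerivAt t hy
  have hA' : DifferentiableAt ℂ (fun u => actC χ R (z u).1 (z u).2.1 (J u)) t := hA.differentiableAt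
  have key := (evB ℓ).fam_sol zero_le_one C hU.differentiableAt
    (hj.mono fun u h => by rw [emb_V]; exact (j2_of (z u).2.1 h).toJ1)
    (by rw [emb_V]; exact j2_of (z t).2.1 hs.jet) (by rw [emb_V]; exact okOn_of hr)
    (fun w _ => Or.inr (by rw [emb_V]; exact eqn_of hs w)) 1
  simp only [emb_A, fderiv_apply_one_eq_deriv, hU.deriv] at key
  refine hA'.hasDerivAt.congr_deriv (key.trans ?_)
  have e : (evB ℓ).V (demb R ((z t).1, (z t).2.1, J t) (z'.1, z'.2.1, J')) =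
      dv R (z t).1 (z t).2.1 z'.1 z'.2.1 J' := by
    funext w
    change ex ((z'.2.1 / 2) • (gam R (z t).1 * gam R (z t).1 - (2 : ℂ) • 1) +
      ((z t).2.1 * z'.1) • (gam R (z t).1 * cb3)) w.1 + pv (J' 0) w = _
    simp only [dv, ex, ContinuousMap.add_apply, ContinuousMap.smul_apply,
      ContinuousMap.sub_apply, ContinuousMap.mul_apply, ContinuousMap.one_apply, smul_eq_mul]
    ring
  rw [Ev.fl, Ev.fl, Ev.st, e, emb_V]
  rfl

theorem flux_one (R : ℝ) (X a X' a' : ℂ) (J J' : Jt ℓ) :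
    flux 1 (ex (gam R X)) (fun s => X' * ex cb3 s) (vf R X a J 0) (vf R X a J 1) (vf R X a J 3)
      (dv R X a X' a' J') = ∫ θ in (0 : ℝ)..(2 * Real.pi),
        ((B1.Lag X (vj R X a J i1 θ 0) (vj R X a J i1 θ 1) (vj R X a J i1 θ 3) -
          vj R X a J i1 θ 1 * Mom X (vj R X a J i1 θ 0) (vj R X a J i1 θ 1) (vj R X a J i1 θ 3)) * X' +
          Mom X (vj R X a J i1 θ 0) (vj R X a J i1 θ 1) (vj R X a J i1 θ 3) *
            (a' * (X ^ 2 - 2) / 2 + a * X * X' + val (J' 0) i1 θ)) := by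
  have e : projIcc (0 : ℝ) 1 zero_le_one 1 = i1 := projIcc_right _
  simp only [flux, OI, dv, vf, pv, ex, e, gam_i1, cb3_i1, Lag_eq, Mom_eq, val]
  congr 1; funext θ; ring

theorem flux_zero (R : ℝ) (X a X' a' : ℂ) (J J' : Jt ℓ) :
    flux 0 (ex (gam R X)) (fun s => X' * ex cb3 s) (vf R X a J 0) (vf R X a J 1) (vf R X a J 3)
      (dv R X a X' a' J') = ∫ θ in (0 : ℝ)..(2 * Real.pi),
        Mom R (vj R X a J i0 θ 0) (vj R X a J i0 θ 1) (vj R X a J i0 θ 3) *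
          (a' * ((R : ℂ) ^ 2 - 2) / 2 + val (J' 0) i0 θ) := by
  have e : projIcc (0 : ℝ) 1 zero_le_one 0 = i0 := projIcc_left _
  simp only [flux, OI, dv, vf, pv, ex, e, gam_i0, cb3_i0, Mom_eq, val]
  congr 1; funext θ; ring

theorem fvS_holds : FVS := by
  intro ℓ R z J z' J' t hz hJ _ hj hs hr
  have h := actC_deriv cut_one R hz hJ hj hs hr
  simp only [actC_one, strip_zero, flux_one, flux_zero, one_mul, sub_zero] at h
  exact h

/-- the torque of a solution through the circle `s` equals the torque through the far circle -/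
theorem torque_sol {R : ℝ} {z : Par ℓ} {J : Jt ℓ} (hs : Sol R z J) (hr : RegJ R z.1 z.2.1 J)
    (h2 : ∀ s θ, 2 * vj R z.1 z.2.1 J s θ 0 ∈ slitPlane) {c σ : ℝ → ℂ} (A : Ang c σ) {s : ℝ}
    (h : s ∈ Icc (0 : ℝ) 1) :
    torque s (ex (gam R z.1)) (vf R z.1 z.2.1 J 0) (vf R z.1 z.2.1 J 1) (vf R z.1 z.2.1 J 3) c σ =
    torque 1 (ex (gam R z.1)) (vf R z.1 z.2.1 J 0) (vf R z.1 z.2.1 J 1) (vf R z.1 z.2.1 J 3) c σ :=
  torque_const (j2_of z.2.1 hs.jet) (okOn_of hr) (fun _ _ => h2 _ _) A h (fun w _ => eqn_of hs w)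

end Crest.Agent.N250.Act

end
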