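import Crest.Agent.N250.Act.Box

/-!
# Row 250, B1 / S7 (helper97): the Lagrangian `√Q · E` of the Gaussian area of a polar graph
(`v = r² / 2`), its partial derivatives and its Euler–Lagrange expression
-/

set_option autoImplicit false
open Set Filter Topology Complex

noncomputable section

namespace Crest.Agent.N250.Act

/-- `Q = 2 v + v_x² + v_θ² / (2 v)` -/
def Qf (v p q : ℂ) : ℂ := 2 * v + p ^ 2 + q ^ 2 / (2 * v)

/-- `√Q` -/
def Wf (v p q : ℂ) : ℂ := Complex.sqrt (Qf v p q)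

/-- the Gaussian weight -/
def Ef (x v : ℂ) : ℂ := exp (-x ^ 2 / 4 - v / 2)

/-- the Lagrangian -/
def Lag (x v p q : ℂ) : ℂ := Wf v p q * Ef x v

def Lx (x v p q : ℂ) : ℂ := -x / 2 * Lag x v p q
def Lv (x v p q : ℂ) : ℂ :=
  Ef x v * ((1 - q ^ 2 / (4 * v ^ 2)) / Wf v p q - Wf v p q / 2)
/-- the momentum -/
def Lp (x v p q : ℂ) : ℂ := Ef x v * p / Wf v p q
def Lq (x v p q : ℂ) : ℂ := Ef x v * q / (2 * v * Wf v p q)

/-- total `x`-derivative of `Q` (`r = v_xx`, `m = v_xθ`) -/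
def Qx (v p q r m : ℂ) : ℂ := 2 * p + 2 * p * r + q * m / v - q ^ 2 * p / (2 * v ^ 2)
/-- total `θ`-derivative of `Q` (`t = v_θθ`) -/
def Qt (v p q m t : ℂ) : ℂ := 2 * q + 2 * p * m + q * t / v - q ^ 3 / (2 * v ^ 2)

/-- the shrinker equation (h65-B1.0) is `Eqn = 0` -/
def Eqn (x v p q r m t : ℂ) : ℂ :=
  r - x / 2 * p + v - 1 + t / (2 * v) -
    (p * Qx v p q r m + q * Qt v p q m t / (2 * v)) / (2 * Qf v p q) - q ^ 2 / (4 * v ^ 2)

/-- admissible jets -/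
def Ok (v p q : ℂ) : Prop := v ≠ 0 ∧ Qf v p q ∈ slitPlane

theorem sqrt_sq' {z : ℂ} : Complex.sqrt z ^ 2 = z := by
  rw [Complex.sqrt]
  exact_mod_cast cpow_nat_inv_pow z (n := 2) two_ne_zero

theorem Wf_sq (v p q : ℂ) : Wf v p q ^ 2 = Qf v p q := sqrt_sq'

theorem Ok.Q_ne {v p q : ℂ} (h : Ok v p q) : Qf v p q ≠ 0 := slitPlane_ne_zero h.2

theorem Ok.W_ne {v p q : ℂ} (h : Ok v p q) : Wf v p q ≠ 0 := fun h0 =>
  h.Q_ne (by rw [← Wf_sq, h0]; simp)

theorem sqrt_hd {z : ℂ} (hz : z ∈ slitPlane) :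
    HasDerivAt Complex.sqrt (1 / (2 * Complex.sqrt z)) z := by
  have h := (differentiableAt_sqrt hz).hasDerivAt
  have h0 : Complex.sqrt z ≠ 0 := fun h0 => slitPlane_ne_zero hz (by
    rw [← sqrt_sq' (z := z), h0]; simp)
  have h1 : HasDerivAt (fun y => Complex.sqrt y ^ 2) (2 * Complex.sqrt z * deriv Complex.sqrt z) z := by
    exact (h.fun_pow 2).congr_deriv (by simp)
  have h2 : (fun y : ℂ => Complex.sqrt y ^ 2) = id := funext fun y => sqrt_sq'
  rw [h2] at h1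
  have h3 := h1.unique (hasDerivAt_id z)
  refine h.congr_deriv ?_
  field_simp
  linear_combination h3

section der

variable {𝕜 : Type*} [NontriviallyNormedField 𝕜] [NormedAlgebra 𝕜 ℂ] [IsScalarTower 𝕜 ℂ ℂ]
  {x v p q : 𝕜 → ℂ} {x' v' p' q' : ℂ} {s : 𝕜}

theorem Qf_hd (hv : HasDerivAt v v' s) (hp : HasDerivAt p p' s) (hq : HasDerivAt q q' s)
    (h0 : v s ≠ 0) : HasDerivAt (fun s => Qf (v s) (p s) (q s))
      (2 * v' + 2 * p s * p' + q s * q' / v s - q s ^ 2 * v' / (2 * v s ^ 2)) s := by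
  have h := ((hv.const_mul 2).fun_add (hp.fun_pow 2)).fun_add
    ((hq.fun_pow 2).fun_div (hv.const_mul 2) (mul_ne_zero two_ne_zero h0))
  refine HasDerivAt.congr_deriv h ?_
  field_simp
  ring

theorem Wf_hd (hv : HasDerivAt v v' s) (hp : HasDerivAt p p' s) (hq : HasDerivAt q q' s)
    (h0 : Ok (v s) (p s) (q s)) : HasDerivAt (fun s => Wf (v s) (p s) (q s))
      ((2 * v' + 2 * p s * p' + q s * q' / v s - q s ^ 2 * v' / (2 * v s ^ 2)) /
        (2 * Wf (v s) (p s) (q s))) s := by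
  have h := (sqrt_hd h0.2).comp_of_eq s (Qf_hd hv hp hq h0.1) rfl
  refine HasDerivAt.congr_deriv h ?_
  rw [Wf]; ring

theorem Ef_hd (hx : HasDerivAt x x' s) (hv : HasDerivAt v v' s) :
    HasDerivAt (fun s => Ef (x s) (v s)) (Ef (x s) (v s) * (-(x s * x') / 2 - v' / 2)) s := by
  have h := (((hx.fun_pow 2).fun_neg.div_const 4).fun_sub (hv.div_const 2)).cexp
  refine HasDerivAt.congr_deriv h ?_
  rw [Ef]; ring

theorem Lag_hd (hx : HasDerivAt x x' s) (hv : HasDerivAt v v' s) (hp : HasDerivAt p p' s)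
    (hq : HasDerivAt q q' s) (h0 : Ok (v s) (p s) (q s)) :
    HasDerivAt (fun s => Lag (x s) (v s) (p s) (q s))
      (Lx (x s) (v s) (p s) (q s) * x' + Lv (x s) (v s) (p s) (q s) * v' +
        Lp (x s) (v s) (p s) (q s) * p' + Lq (x s) (v s) (p s) (q s) * q') s := by
  have h := (Wf_hd hv hp hq h0).fun_mul (Ef_hd hx hv)
  have hW := h0.W_ne
  have hv0 := h0.1
  refine HasDerivAt.congr_deriv h ?_
  simp only [Lx, Lv, Lp, Lq, Lag]
  field_simp
  ring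

/-- derivative of the momentum -/
def dLp (x v p q x' v' p' q' : ℂ) : ℂ :=
  Ef x v * ((-(x * x') / 2 - v' / 2) * p / Wf v p q + p' / Wf v p q -
    p * (2 * v' + 2 * p * p' + q * q' / v - q ^ 2 * v' / (2 * v ^ 2)) / (2 * Wf v p q ^ 3))

def dLq (x v p q x' v' p' q' : ℂ) : ℂ :=
  Ef x v * ((-(x * x') / 2 - v' / 2) * q / (2 * v * Wf v p q) + q' / (2 * v * Wf v p q) -
    q * v' / (2 * v ^ 2 * Wf v p q) -
    q * (2 * v' + 2 * p * p' + q * q' / v - q ^ 2 * v' / (2 * v ^ 2)) / (4 * v * Wf v p q ^ 3))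

theorem Lp_hd (hx : HasDerivAt x x' s) (hv : HasDerivAt v v' s) (hp : HasDerivAt p p' s)
    (hq : HasDerivAt q q' s) (h0 : Ok (v s) (p s) (q s)) :
    HasDerivAt (fun s => Lp (x s) (v s) (p s) (q s)) (dLp (x s) (v s) (p s) (q s) x' v' p' q') s := by
  have hW := h0.W_ne
  have h := ((Ef_hd hx hv).fun_mul hp).fun_div (Wf_hd hv hp hq h0) hW
  have hv0 := h0.1
  refine HasDerivAt.congr_deriv h ?_
  simp only [dLp]
  field_simp

theorem Lq_hd (hx : HasDerivAt x x' s) (hv : HasDerivAt v v' s) (hp : HasDerivAt p p' s)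
    (hq : HasDerivAt q q' s) (h0 : Ok (v s) (p s) (q s)) :
    HasDerivAt (fun s => Lq (x s) (v s) (p s) (q s)) (dLq (x s) (v s) (p s) (q s) x' v' p' q') s := by
  have hW := h0.W_ne
  have hv0 := h0.1
  have h := ((Ef_hd hx hv).fun_mul hq).fun_div ((hv.const_mul 2).fun_mul (Wf_hd hv hp hq h0))
    (mul_ne_zero (mul_ne_zero two_ne_zero hv0) hW)
  refine HasDerivAt.congr_deriv h ?_
  simp only [dLq]
  field_simp
  ring

end der

/-- the Euler–Lagrange identity -/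
theorem el_eq {x v p q : ℂ} (r m t : ℂ) (h0 : Ok v p q) :
    Lv x v p q - dLp x v p q 1 p r m - dLq x v p q 0 q m t =
      -(Ef x v / Wf v p q * Eqn x v p q r m t) := by
  have hW := h0.W_ne
  have hv0 := h0.1
  have hQ := Wf_sq v p q
  have hQ' : Wf v p q ^ 2 * (2 * v) = (2 * v + p ^ 2) * (2 * v) + q ^ 2 := by
    rw [hQ, Qf]; field_simp
  simp only [Lv, dLp, dLq, Eqn, Qx, Qt, ← hQ]
  generalize Wf v p q = W at *
  field_simp
  linear_combination (-(8 : ℂ) * Ef x v * v ^ 2 * W ^ 2) * hQ'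

theorem dLp_smul (x v p q k x' v' p' q' : ℂ) :
    dLp x v p q (k * x') (k * v') (k * p') (k * q') = k * dLp x v p q x' v' p' q' := by
  simp only [dLp]; ring

section cont

variable {X : Type*} [TopologicalSpace X] {K : Set X} {x v p q x' v' p' q' r m t : X → ℂ}

theorem Qf_c (hv : ContinuousOn v K) (hp : ContinuousOn p K) (hq : ContinuousOn q K)
    (h0 : ∀ z ∈ K, Ok (v z) (p z) (q z)) : ContinuousOn (fun z => Qf (v z) (p z) (q z)) K := by
  unfold Qf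
  have : ∀ z ∈ K, 2 * v z ≠ 0 := fun z hz => mul_ne_zero two_ne_zero (h0 z hz).1
  fun_prop (disch := assumption)

theorem Wf_c (hv : ContinuousOn v K) (hp : ContinuousOn p K) (hq : ContinuousOn q K)
    (h0 : ∀ z ∈ K, Ok (v z) (p z) (q z)) : ContinuousOn (fun z => Wf (v z) (p z) (q z)) K :=
  continuousOn_sqrt.comp (Qf_c hv hp hq h0) (fun z hz => (h0 z hz).2)

theorem Ef_c (hx : ContinuousOn x K) (hv : ContinuousOn v K) :
    ContinuousOn (fun z => Ef (x z) (v z)) K := by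
  unfold Ef; fun_prop

theorem Lag_c (hx : ContinuousOn x K) (hv : ContinuousOn v K) (hp : ContinuousOn p K)
    (hq : ContinuousOn q K) (h0 : ∀ z ∈ K, Ok (v z) (p z) (q z)) :
    ContinuousOn (fun z => Lag (x z) (v z) (p z) (q z)) K :=
  (Wf_c hv hp hq h0).fun_mul (Ef_c hx hv)

theorem Lx_c (hx : ContinuousOn x K) (hv : ContinuousOn v K) (hp : ContinuousOn p K)
    (hq : ContinuousOn q K) (h0 : ∀ z ∈ K, Ok (v z) (p z) (q z)) :
    ContinuousOn (fun z => Lx (x z) (v z) (p z) (q z)) K :=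
  (hx.fun_neg.div_const 2).fun_mul (Lag_c hx hv hp hq h0)

theorem Lv_c (hx : ContinuousOn x K) (hv : ContinuousOn v K) (hp : ContinuousOn p K)
    (hq : ContinuousOn q K) (h0 : ∀ z ∈ K, Ok (v z) (p z) (q z)) :
    ContinuousOn (fun z => Lv (x z) (v z) (p z) (q z)) K := by
  have h1 := Wf_c hv hp hq h0
  have h2 := Ef_c hx hv
  have : ∀ z ∈ K, 4 * v z ^ 2 ≠ 0 := fun z hz => mul_ne_zero (by norm_num) (pow_ne_zero _ (h0 z hz).1)
  have : ∀ z ∈ K, Wf (v z) (p z) (q z) ≠ 0 := fun z hz => (h0 z hz).W_ne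
  unfold Lv
  fun_prop (disch := assumption)

theorem Lp_c (hx : ContinuousOn x K) (hv : ContinuousOn v K) (hp : ContinuousOn p K)
    (hq : ContinuousOn q K) (h0 : ∀ z ∈ K, Ok (v z) (p z) (q z)) :
    ContinuousOn (fun z => Lp (x z) (v z) (p z) (q z)) K :=
  ((Ef_c hx hv).fun_mul hp).div (Wf_c hv hp hq h0) (fun z hz => (h0 z hz).W_ne)

theorem Lq_c (hx : ContinuousOn x K) (hv : ContinuousOn v K) (hp : ContinuousOn p K)
    (hq : ContinuousOn q K) (h0 : ∀ z ∈ K, Ok (v z) (p z) (q z)) :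
    ContinuousOn (fun z => Lq (x z) (v z) (p z) (q z)) K :=
  ((Ef_c hx hv).fun_mul hq).div ((hv.const_mul 2).fun_mul (Wf_c hv hp hq h0))
    (fun z hz => mul_ne_zero (mul_ne_zero two_ne_zero (h0 z hz).1) (h0 z hz).W_ne)

theorem dLp_c (hx : ContinuousOn x K) (hv : ContinuousOn v K) (hp : ContinuousOn p K)
    (hq : ContinuousOn q K) (hx' : ContinuousOn x' K) (hv' : ContinuousOn v' K)
    (hp' : ContinuousOn p' K) (hq' : ContinuousOn q' K) (h0 : ∀ z ∈ K, Ok (v z) (p z) (q z)) :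
    ContinuousOn (fun z => dLp (x z) (v z) (p z) (q z) (x' z) (v' z) (p' z) (q' z)) K := by
  have h1 := Wf_c hv hp hq h0
  have h2 := Ef_c hx hv
  have : ∀ z ∈ K, v z ≠ 0 := fun z hz => (h0 z hz).1
  have : ∀ z ∈ K, 2 * v z ^ 2 ≠ 0 := fun z hz => mul_ne_zero two_ne_zero (pow_ne_zero _ (h0 z hz).1)
  have : ∀ z ∈ K, Wf (v z) (p z) (q z) ≠ 0 := fun z hz => (h0 z hz).W_ne
  have : ∀ z ∈ K, 2 * Wf (v z) (p z) (q z) ^ 3 ≠ 0 := fun z hz =>
    mul_ne_zero two_ne_zero (pow_ne_zero _ (h0 z hz).W_ne)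
  unfold dLp
  fun_prop (disch := assumption)

theorem dLq_c (hx : ContinuousOn x K) (hv : ContinuousOn v K) (hp : ContinuousOn p K)
    (hq : ContinuousOn q K) (hx' : ContinuousOn x' K) (hv' : ContinuousOn v' K)
    (hp' : ContinuousOn p' K) (hq' : ContinuousOn q' K) (h0 : ∀ z ∈ K, Ok (v z) (p z) (q z)) :
    ContinuousOn (fun z => dLq (x z) (v z) (p z) (q z) (x' z) (v' z) (p' z) (q' z)) K := by
  have h1 := Wf_c hv hp hq h0
  have h2 := Ef_c hx hv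
  have : ∀ z ∈ K, v z ≠ 0 := fun z hz => (h0 z hz).1
  have : ∀ z ∈ K, 2 * v z ^ 2 ≠ 0 := fun z hz => mul_ne_zero two_ne_zero (pow_ne_zero _ (h0 z hz).1)
  have : ∀ z ∈ K, 2 * v z * Wf (v z) (p z) (q z) ≠ 0 := fun z hz =>
    mul_ne_zero (mul_ne_zero two_ne_zero (h0 z hz).1) (h0 z hz).W_ne
  have : ∀ z ∈ K, 2 * v z ^ 2 * Wf (v z) (p z) (q z) ≠ 0 := fun z hz =>
    mul_ne_zero (mul_ne_zero two_ne_zero (pow_ne_zero _ (h0 z hz).1)) (h0 z hz).W_ne
  have : ∀ z ∈ K, 4 * v z * Wf (v z) (p z) (q z) ^ 3 ≠ 0 := fun z hz =>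
    mul_ne_zero (mul_ne_zero (by norm_num) (h0 z hz).1) (pow_ne_zero _ (h0 z hz).W_ne)
  unfold dLq
  fun_prop (disch := assumption)

end cont

theorem isOpen_ok : IsOpen {w : ℂ × ℂ × ℂ | Ok w.1 w.2.1 w.2.2} := by
  have h1 : IsOpen {w : ℂ × ℂ × ℂ | w.1 ≠ 0} := isOpen_ne_fun continuous_fst continuous_const
  have h2 : ContinuousOn (fun w : ℂ × ℂ × ℂ => Qf w.1 w.2.1 w.2.2) {w | w.1 ≠ 0} := by
    unfold Qf
    have : ∀ w ∈ {w : ℂ × ℂ × ℂ | w.1 ≠ 0}, 2 * w.1 ≠ 0 := fun w hw => mul_ne_zero two_ne_zero hw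
    fun_prop (disch := assumption)
  exact h2.isOpen_inter_preimage h1 isOpen_slitPlane

end Crest.Agent.N250.Act

end
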