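import Crest.Agent.N250.Act.Inst

/-!
# Row 250, B1 / S7 (helper97): the axial Noether current and the torque of a general rotation
-/

set_option autoImplicit false
open MeasureTheory Set Filter Topology Complex

noncomputable section

namespace Crest.Agent.N250.Act

open B1

variable {α β : ℝ}

/-- the flux of the angular momentum about the axis -/
def ax (s : ℝ) (x : ℝ → ℂ) (v p q : ℝ × ℝ → ℂ) : ℂ :=
  OI s fun z => Lp (x z.1) (v z) (p z) (q z) * q z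

theorem ax_sub {x k : ℝ → ℂ} {v p q r m t : ℝ × ℝ → ℂ} (h : α ≤ β)
    (J : J2 α β x k v p q r m t) (ho : OkOn α β v p q) :
    ax β x v p q - ax α x v p q = -bulk α β (fun _ => 1) x k (fun _ => 0) v p q r m t q := by
  have key := fv (ξ := fun _ => 0) (ξ' := fun _ => 0) h cut_one J ho continuousOn_const
    continuousOn_const (fun s _ => hasDerivAt_const s _) J.cq J.cm J.ct
    (fun s hs θ hθ => by simpa using J.dsq s hs θ hθ) J.dtq J.pq
  have hx := c1 J.cx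
  have hk := c1 J.ck
  have h0 := II_dt (G := fun z => Lag (x z.1) (v z) (p z) (q z) * k z.1) h
    (G' := fun z => (Lv (x z.1) (v z) (p z) (q z) * q z + Lp (x z.1) (v z) (p z) (q z) * m z +
      Lq (x z.1) (v z) (p z) (q z) * t z) * k z.1)
    ((Lag_c hx J.cv J.cp J.cq ho).fun_mul hk)
    (((((Lv_c hx J.cv J.cp J.cq ho).fun_mul J.cq).fun_add
      ((Lp_c hx J.cv J.cp J.cq ho).fun_mul J.cm)).fun_add
      ((Lq_c hx J.cv J.cp J.cq ho).fun_mul J.ct)).fun_mul hk)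
    (fun s hs θ hθ => by
      have := (Lag_hd (hasDerivAt_const θ (x s)) (J.dtv s hs θ hθ) (J.dtp s hs θ hθ)
        (J.dtq s hs θ hθ) (ho (s, θ) ⟨hs, Ioo_subset_Icc_self hθ⟩)).mul_const (k s)
      simpa using this)
    (fun s hs => by simp only [J.pv s hs, J.pp s hs, J.pq s hs])
  simp only [mul_zero, zero_add, add_zero, one_mul, strip_zero, sub_zero, flux] at key
  rw [h0] at key
  simp only [ax]
  linear_combination -key

theorem ax_const {x k : ℝ → ℂ} {v p q r m t : ℝ × ℝ → ℂ}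
    (J : J2 α β x k v p q r m t) (ho : OkOn α β v p q) {s : ℝ} (hs : s ∈ Icc α β)
    (he : ∀ z ∈ Rc s β, Eqn (x z.1) (v z) (p z) (q z) (r z) (m z) (t z) = 0) :
    ax s x v p q = ax β x v p q := by
  have h3 : Rc s β ⊆ Rc α β := prod_mono (Icc_subset_Icc hs.1 le_rfl) Subset.rfl
  have := ax_sub hs.2 (J.mono hs.1 le_rfl) fun z hz => ho z (h3 hz)
  rw [bulk_zero hs.2 fun z hz => Or.inr (he z hz), neg_zero, sub_eq_zero] at this
  exact this.symm

/-- the angular functions of the tilt `(a, b)` -/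
def cT (a b : ℂ) (θ : ℝ) : ℂ := a * (Real.cos θ : ℂ) + b * (Real.sin θ : ℂ)

/-- `σ = - c'` -/
def sT (a b : ℂ) (θ : ℝ) : ℂ := a * (Real.sin θ : ℂ) - b * (Real.cos θ : ℂ)

theorem ang_T (a b : ℂ) : Ang (cT a b) (sT a b) :=
  ⟨fun θ => (((ang_cos.dc θ).const_mul a).fun_add ((ang_cos.dσ θ).const_mul b)).congr_deriv
      (by simp only [sT]; ring),
    fun θ => (((ang_cos.dσ θ).const_mul a).fun_sub ((ang_cos.dc θ).const_mul b)).congr_deriv
      (by simp only [cT]; ring), by simp [cT], by simp [sT]⟩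

theorem Ang.cont {c σ : ℝ → ℂ} (A : Ang c σ) : Continuous c ∧ Continuous σ :=
  ⟨continuous_iff_continuousAt.2 fun θ => (A.dc θ).continuousAt,
    continuous_iff_continuousAt.2 fun θ => (A.dσ θ).continuousAt⟩

/-- the torque is linear in the tilt -/
theorem torque_T {x : ℝ → ℂ} {v p q : ℝ × ℝ → ℂ} {s : ℝ} (hv : ContinuousOn v (Rc s s))
    (hp : ContinuousOn p (Rc s s)) (hq : ContinuousOn q (Rc s s)) (ho : OkOn s s v p q)
    (h1 : ∀ z ∈ Rc s s, 2 * v z ∈ slitPlane) (a b : ℂ) :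
    torque s x v p q (cT a b) (sT a b) =
      a * torque s x v p q (fun θ => (Real.cos θ : ℂ)) (fun θ => (Real.sin θ : ℂ)) +
      b * torque s x v p q (fun θ => (Real.sin θ : ℂ)) (fun θ => -(Real.cos θ : ℂ)) := by
  have hx : ContinuousOn (fun z : ℝ × ℝ => x z.1) (Rc s s) :=
    continuousOn_const.congr fun z hz => congrArg x (le_antisymm hz.1.2 hz.1.1)
  have k : ∀ {c σ : ℝ → ℂ}, Ang c σ → ContinuousOn
      (fun z : ℝ × ℝ => Mx (x z.1) (v z) (p z) (q z) (c z.2) (σ z.2)) (Rc s s) := fun A =>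
    (M_c hx hv hp hq (A.cont.1.comp continuous_snd).continuousOn
      (A.cont.2.comp continuous_snd).continuousOn hx hx hx hx ho h1).1
  simp only [torque, OI, ← intervalIntegral.integral_const_mul]
  rw [← intervalIntegral.integral_add ((ii_t (k ang_cos) ⟨le_rfl, le_rfl⟩).const_mul a)
    ((ii_t (k ang_sin) ⟨le_rfl, le_rfl⟩).const_mul b)]
  congr 1; funext θ
  simp only [Mx, cT, sT]; ring

variable {ℓ : Ell}

/-- the torque of the end `(X, a, J)` through the circle `s` for the infinitesimal rotation with tilt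
`(a₁, a₂)` and axial part `a₃` -/
def tq (s R : ℝ) (X a : ℂ) (J : Jt ℓ) (a₁ a₂ a₃ : ℂ) : ℂ :=
  torque s (ex (gam R X)) (vf R X a J 0) (vf R X a J 1) (vf R X a J 3) (cT a₁ a₂) (sT a₁ a₂) +
    a₃ * ax s (ex (gam R X)) (vf R X a J 0) (vf R X a J 1) (vf R X a J 3)

theorem ax_sol {R : ℝ} {z : Par ℓ} {J : Jt ℓ} (hs : Sol R z J) (hr : RegJ R z.1 z.2.1 J) {s : ℝ}
    (h : s ∈ Icc (0 : ℝ) 1) :
    ax s (ex (gam R z.1)) (vf R z.1 z.2.1 J 0) (vf R z.1 z.2.1 J 1) (vf R z.1 z.2.1 J 3) =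
    ax 1 (ex (gam R z.1)) (vf R z.1 z.2.1 J 0) (vf R z.1 z.2.1 J 1) (vf R z.1 z.2.1 J 3) :=
  ax_const (j2_of z.2.1 hs.jet) (okOn_of hr) h (fun w _ => eqn_of hs w)

theorem tq_sol {R : ℝ} {z : Par ℓ} {J : Jt ℓ} (hs : Sol R z J) (hr : RegJ R z.1 z.2.1 J)
    (h2 : ∀ s θ, 2 * vj R z.1 z.2.1 J s θ 0 ∈ slitPlane) (a₁ a₂ a₃ : ℂ) {s : ℝ}
    (h : s ∈ Icc (0 : ℝ) 1) : tq s R z.1 z.2.1 J a₁ a₂ a₃ = tq 1 R z.1 z.2.1 J a₁ a₂ a₃ := by
  rw [tq, tq, torque_sol hs hr h2 (ang_T a₁ a₂) h, ax_sol hs hr h]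

/-- bound by the three basic torques -/
theorem tq_le {s R : ℝ} {X a : ℂ} {J : Jt ℓ} (hr : RegJ R X a J)
    (h2 : ∀ s θ, 2 * vj R X a J s θ 0 ∈ slitPlane) {M A : ℝ} {a₁ a₂ a₃ : ℂ}
    (hc : ‖torque s (ex (gam R X)) (vf R X a J 0) (vf R X a J 1) (vf R X a J 3)
      (fun θ => (Real.cos θ : ℂ)) (fun θ => (Real.sin θ : ℂ))‖ ≤ M)
    (hσ : ‖torque s (ex (gam R X)) (vf R X a J 0) (vf R X a J 1) (vf R X a J 3)
      (fun θ => (Real.sin θ : ℂ)) (fun θ => -(Real.cos θ : ℂ))‖ ≤ M)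
    (ha : ‖ax s (ex (gam R X)) (vf R X a J 0) (vf R X a J 1) (vf R X a J 3)‖ ≤ M)
    (h₁ : ‖a₁‖ ≤ A) (h₂ : ‖a₂‖ ≤ A) (h₃ : ‖a₃‖ ≤ A) : ‖tq s R X a J a₁ a₂ a₃‖ ≤ 3 * (A * M) := by
  rw [tq, torque_T (vf_cont ..).continuousOn (vf_cont ..).continuousOn (vf_cont ..).continuousOn
    (fun _ _ => hr _ _) (fun _ _ => h2 _ _)]
  have hA := (norm_nonneg _).trans h₁
  refine (norm_add₃_le).trans ?_
  simp only [norm_mul]
  linarith [mul_le_mul h₁ hc (norm_nonneg _) hA, mul_le_mul h₂ hσ (norm_nonneg _) hA,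
    mul_le_mul h₃ ha (norm_nonneg _) hA]

end Crest.Agent.N250.Act

end
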